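import Vale.Agent.P014U.Ol.Pb

/-! # P014U, levels at least three: several primes (helper62) -/

set_option linter.all false

open UpperHalfPlane CongruenceSubgroup Matrix Finset NumberField
open scoped MatrixGroups

noncomputable section

namespace Vale.Agent.P014U.Ol.Pm

open Vale.Agent.P014T Vale.Agent.P014T.Pm

open Vale.Agent.P022 H218.L3 H231.L3 P027M.M P027M.M.Dp P022K.QT.Cu
open Vale.Agent.P022E.GW (Ov Fb)
open Vale.Agent.P014T.Dr (Hm Ha Tv Hm_le Ha_le Hm_open)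
open Sg Nr

section

variable {X : Mdl} {Ξ C : Type} [AddCommGroup Ξ] [DistribMulAction Au Ξ] [AddCommGroup C] {m : ℕ}
  {Cu : AddSubgroup Ξ} {σ : GQ →* AddMonoid.End C} {Z : Subgroup SL(2, ℤ) → Ξ → FF → FF → C}
  {ξ : Ξ} {c d n p k N : ℕ} {A G Y Y' : M2} {u v : Fin 2 → ZMod p}

theorem cx (x : Cx X m Cu ξ N c d k A) (y : Lv c d k Y) : Cx X m Cu ξ N c d k Y :=
  ⟨x.hc, x.hd, x.pos, x.four, x.md, x.nd, x.cu, x.inv, x.fix, y.n0, y.n1⟩

/-- **the unit class is the Euler factor times the primitive class** -/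
theorem prim (R : Ru X m Cu σ Z) (hD : DET X m Cu σ Z) (x : Cx X m Cu ξ N c d (n * p) A)
    (y : Lv c d n A) (hp : p.Prime) (pn : ¬ p ∣ n) (mn : m ∣ n) (pc : p.Coprime (c * d))
    (pA' : ¬ (p : ℤ) ∣ A.det) {a : ℤ} (hU : Uk X ξ p a) {φ : GQ} (hφ : Cyc n φ p) {T : Finset GQ}
    (t : Tv (Hm n) (Hm (n * p)) T) :
    (a * p ^ 2) • ∑ s ∈ T, σ s (ZL Z ξ c d (n * p) A) =
      p • ∑ b ∈ range p, ZL Z ξ c d (n * p) (A * !![(p : ℤ), b; 0, 1]) -
        a • σ φ⁻¹ (∑ b ∈ range p, ZL Z ξ c d (n * p) (A * !![(p : ℤ), b; 0, 1])) := by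
  have := Fact.mk hp
  have p0 := hp.pos
  have k0 := x.pos
  have pn : IsCoprime (p : ℤ) n := Nat.isCoprime_iff_coprime.2 ((hp.coprime_iff_not_dvd).2 pn)
  have mn : (m : ℤ) ∣ n := Int.natCast_dvd_natCast.2 mn
  have hj (j : ℤ) : 0 < (!![1, j; 0, (p : ℤ)] : M2).det := by simpa using p0
  have x0 : Xi X Cu (Gamma0 N) ξ := ⟨x.cu, x.inv, fun h _ => x.fix h⟩
  have x1 := xi_pA R x0 (hj 0) (cj_dl x.nd)
  have x2 := xi_mono x0 (Ga_G0 x.nd)
  choose Y hY using ex_mt pn A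
  have lv {Y u v} (h : Mt (p := p) n A Y u v) : Lv c d (n * p) Y :=
    y.up p0 (G := 1) (by simpa using h.cg) (by simpa using isCoprime_one_left)
  have lq (b : ℤ) : Lv c d (n * p) (A * !![(p : ℤ), b; 0, 1]) := y.up p0 Cg.rfl (by simpa using pn)
  have tz {Y} (h : Lv c d (n * p) Y) : m • ZL Z ξ c d (n * p) Y = 0 := R.tor _ _ _ _ (h.ok x2)
  choose cr c1 c2 using ex_crt (p := p) pn 0
  simp only [sub_zero] at c1
  choose cq c1 using c1
  have inv (t : ℤ) : pS X (up t) • ξ = ξ := x.inv _ (mem_G0.2 (dvd_zero _))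
  let e0 : Fin 2 → ZMod p := fun i => A i 0
  let e1 : Fin 2 → ZMod p := fun i => A i 1
  have mA : Mt n A A e0 e1 := ⟨Cg.rfl, fun _ => rfl, fun _ => rfl⟩
  have key := core (g0 := fun u v => ZL Z ξ c d (n * p) (Y u v))
    (g1 := fun u v => ZL Z (pA X _ (hj 0) • ξ) c d (n * p) (Y u v)) (a := a) (x := e0) (y := e1)
    (fun e => pA' ((ZMod.intCast_zmod_eq_zero_iff_dvd _ _).1 (by
      rw [det_fin_two]; push_cast; linear_combination e))) (fun u v j => ?_) (fun u v => ?_) fun u v j => ?_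
  rotate_left
  · obtain ⟨g, -, -, g1, -, e⟩ := dl (p := p) (lo (cr j)) (b := 0) (by simp [lo, Dp.mk])
    have := (lv (hY u v)).conj R x1 (lo (cr j)) ((hY _ _).eq pn ((hY u v).mul (cg_one (c1 j ▸ lo_mem _))
      (u' := u + j • v) (v' := v) (by simp [lo, Dp.mk, c2, mul_comm]) (by simp [lo, Dp.mk])))
    rwa [sw X _ (hj 0) e, x.inv g (mem_G0.2 (g1 ▸ (Int.natCast_dvd_natCast.2 x.nd).trans
      ⟨cq j, by rw [show lo (cr j) 1 0 = _ from c1 j]; push_cast; ring⟩))] at this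
  · have e (j : ZMod p) : ZL Z (pA X _ (hj 0) • ξ) c d (n * p) (Y u (v + (-j) • u)) =
        ZL Z (pA X _ (hj j.val) • ξ) c d (n * p) (Y u v) := by
      obtain ⟨s, hs⟩ := (ZMod.intCast_eq_intCast_iff_dvd_sub (j.val : ℤ) (cr j) p).1 (by simp [c2])
      rw [mul_comm, ZMod.natCast_val] at hs
      rw [← (lv (hY u _)).conj R x1 (up (cr j)) ((hY u v).eq pn ((hY u (v + (-j) • u)).mul
        (cg_one (c1 j ▸ up_mem _)) (by simp [up, Dp.mk]) (by simp [up, Dp.mk, c2, mul_comm]))),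
        sw X _ (hj j.val) (g := up s) (by
          ext a b
          fin_cases a <;> fin_cases b <;> simp [mm, up, Dp.mk, ← sub_eq_iff_eq_add', hs]), inv]
    have xj (j : ℕ) : Xi X Cu (Gamma (n * p)) (pA X _ (hj j) • ξ) := by
      have := xi_pA R x1 (SL_pos (up j)) (cj_Ga _ _)
      rwa [← pS, sw X _ (hj j) (g := up 0) (by
        ext a b
        fin_cases a <;> fin_cases b <;> simp [mm, up, Dp.mk]), inv] at this
    have o := (lv (hY u v)).ok x2
    rw [← Equiv.sum_comp (Equiv.neg _)]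
    simp only [Equiv.neg_apply, e]
    refine (prod_zmod (M := Multiplicative C) p fun i =>
      ZL Z (pA X _ (hj i) • ξ) c d (n * p) (Y u v)).trans ?_
    exact (z_sum R _ xj o.lev o.u1 o.u2).symm.trans (by rw [hU fun j => hj j, z_smul R o]; rfl)
  · have := (lv (hY u v)).conj R x2 (up (cr j)) ((hY _ _).eq pn ((hY u v).mul (cg_one (c1 j ▸ up_mem _))
      (u' := u) (v' := v + j • u) (by simp [up, Dp.mk]) (by simp [up, Dp.mk, c2, mul_comm, add_comm])))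
    rwa [inv] at this
  have mq (b : ℤ) : Mt n (A * !![(p : ℤ), b; 0, 1]) (A * !![(p : ℤ), b; 0, 1]) 0 (e1 + (b : ZMod p) • e0) :=
    mA.mul Cg.rfl (by simp) (by simp [mul_comm, add_comm])
  have q1 (b : ZMod p) : ∑ u, ZL Z (pA X _ (hj 0) • ξ) c d (n * p) (Y u (e1 + b • e0)) =
      ZL Z ξ c d (n * p) (A * !![(p : ℤ), b.val; 0, 1]) := by
    obtain ⟨s, w, h⟩ := id pn
    have h0 := hY 0 (e1 + b • e0)
    have l0 : Lv c d n (Y 0 (e1 + b • e0)) := by
      simpa using y.up one_pos (G := 1) (by simpa using h0.cg) (by simpa using isCoprime_one_left)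
    have := (l0.up p0 (G := !![(p : ℤ), 0; 0, 1]) Cg.rfl (by simpa using pn)).conj R x2 (up (s * b.val))
      ((mq b.val).eq pn ((h0.mul (G := !![(p : ℤ), 0; 0, 1]) Cg.rfl (u' := 0) (v' := e1 + b • e0)
        (by simp) (by simp)).mul ?_ (by simp [up, Dp.mk]) (by simp [up, Dp.mk])))
    · rw [inv] at this
      rw [this, stepA R p0 pn (pn.of_isCoprime_of_dvd_right mn) (pc.coprime_dvd_right (dvd_mul_right _ _))
        (pc.coprime_dvd_right (dvd_mul_left _ _)) x0 x.nd l0 (hj 0), ← sum_sh pn]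
      refine sum_congr rfl fun i _ => sum_congr rfl fun j _ => ?_
      have m1 : Mt n A (sh n (Y 0 (e1 + b • e0)) i j) ![(n : ZMod p) * (i : ZMod p), (n : ZMod p) * (j : ZMod p)]
          (e1 + b • e0) :=
        ⟨(sh_cg i j).trans (by simpa using h0.cg), Fin.forall_fin_two.2 (by simp [sh, h0.c0]),
          Fin.forall_fin_two.2 ⟨h0.c1 0, h0.c1 1⟩⟩
      have := (hY _ _).eq pn m1
      rw [ZL, ZL, sF_cv x.hc k0 (this 0), sF_cv x.hd k0 (this 1)]
    · rw [Matrix.mul_assoc]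
      refine Cg.rfl.mul ?_
      simp only [Cg, Fin.forall_fin_two, mm]
      simp [up, Dp.mk]
      exact ⟨-w * b.val, by simp only [ZMod.natCast_val] at *; linear_combination (b.cast : ℤ) * h⟩
  have q2 (b : ZMod p) : p • ZL Z ξ c d (n * p) (Y 0 (e1 + b • e0)) =
      σ φ⁻¹ (ZL Z ξ c d (n * p) (A * !![(p : ℤ), b.val; 0, 1])) := by
    obtain ⟨k, hk⟩ := Uy.ex_cyc k0 φ⁻¹
    have e := cyc_inv y.pos hφ (Uy.cyc_dvd k0 (dvd_mul_right _ _) hk)
    rw [hD ξ N c d _ _ (cx x (lq b.val)) !![k, -k * b.val; 0, 1] _ φ⁻¹ k hk (by simp) (by simp)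
      ((hY _ _).eq pn ((mq b.val).mul ?_ (by simp) (by simp))), ← natCast_zsmul, smul_smul,
      tor_eq (by rw [← map_nsmul, tz (lq _), map_zero]) (mn.trans e)]
    rw [Matrix.mul_assoc]
    refine (Cg.rfl.mul (B' := 1) ?_).trans (by simpa using Cg.rfl)
    simp only [Cg, Fin.forall_fin_two, mm]
    simp
    exact ⟨e, (e.mul_right (-b.cast)).trans (dvd_of_eq (by ring))⟩
  have q3 := sum_tv y.pos pn t (f := fun s => σ s (ZL Z ξ c d (n * p) A))
    (g := fun k => ZL Z ξ c d (n * p) (Y (k • e0) e1)) fun s k hk e => by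
      rw [hD ξ N c d _ A x !![k, 0; 0, 1] _ s k hk (by simp) (by simp) ((hY _ _).eq pn (mA.mul ?_
        (by simp [mul_comm]) (by simp))), tor_eq (by rw [← map_nsmul, tz (lv mA), map_zero]) (mn.trans e)]
      refine (Cg.rfl.mul (B' := 1) ?_).trans (by simpa using Cg.rfl)
      simpa [Cg, Fin.forall_fin_two] using e
  simp only [q1] at key
  have s : ∑ b : ZMod p, ZL Z ξ c d (n * p) (A * !![(p : ℤ), b.val; 0, 1]) =
      ∑ b ∈ range p, ZL Z ξ c d (n * p) (A * !![(p : ℤ), b; 0, 1]) :=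
    prod_zmod (M := Multiplicative C) p fun b => ZL Z ξ c d (n * p) (A * !![(p : ℤ), b; 0, 1])
  rw [← s, map_sum, ← sum_congr rfl fun b _ => q2 b, ← smul_sum, key, q3, ZMod.card]
  module

end

section

variable {X : Mdl} {Ξ C : Type} [AddCommGroup Ξ] [DistribMulAction Au Ξ] [AddCommGroup C] {m : ℕ}
  {Cu : AddSubgroup Ξ} {σ : GQ →* AddMonoid.End C} {Z : Subgroup SL(2, ℤ) → Ξ → FF → FF → C}
  {ξ : Ξ} {c d n p k M N : ℕ} {A : M2} {T : Finset GQ}

/-- the primitive classes are defined over the small field -/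
theorem fix_q (R : Ru X m Cu σ Z) (hD : DET X m Cu σ Z) (x : Cx X m Cu ξ N c d (n * p) A) (n0 : 0 < n)
    (mn : m ∣ n) (h0 : ∀ i, (p : ℤ) ∣ A i 0) {h : GQ} (hh : h ∈ Hm n) :
    σ h (ZL Z ξ c d (n * p) A) = ZL Z ξ c d (n * p) A := by
  obtain ⟨k, hk⟩ := Uy.ex_cyc x.pos h
  have e := (Uy.cyc_congr n0 ((Uy.cyc_hm n0).2 hh)).1 (Uy.cyc_dvd x.pos (dvd_mul_right _ _) hk)
  have t := R.tor _ _ _ _ ((⟨x.hc, x.hd, x.pos, x.four, x.n0, x.n1⟩ : Lv c d _ A).ok
    (xi_mono ⟨x.cu, x.inv, fun h _ => x.fix h⟩ (Ga_G0 x.nd)))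
  have := hD ξ N c d _ A x !![k, 0; 0, 1] A h k hk (by simp) (by simp) fun i =>
    Fin.forall_fin_two.2 ⟨by
      rw [Nat.cast_mul]
      exact (mul_dvd_mul e (h0 i)).neg_right.trans (dvd_of_eq (by simp [mm]; ring)), by simp [mm]⟩
  rw [tor_eq (by rw [← map_nsmul, ZL, t, map_zero]) ((Int.natCast_dvd_natCast.2 mn).trans e)] at this
  exact this.symm

theorem fix_z (R : Ru X m Cu σ Z) (hD : DET X m Cu σ Z) (x : Cx X m Cu ξ N c d k A) {h : GQ}
    (hh : h ∈ Hm k) : σ h (ZL Z ξ c d k A) = ZL Z ξ c d k A := by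
  simpa using fix_q (p := 1) R hD (by simpa using x) x.pos x.md (by simp) hh

/-- one prime, the full norm on both sides -/
theorem primN (R : Ru X m Cu σ Z) (hD : DET X m Cu σ Z) (hk : k = n * p) (x : Cx X m Cu ξ N c d k A)
    (y : Lv c d n A) (hp : p.Prime) (pn : ¬ p ∣ n) (mn : m ∣ n) (Mn : M ∣ n) (pc : p.Coprime (c * d))
    (pA' : ¬ (p : ℤ) ∣ A.det) {a : ℤ} (hU : Uk X ξ p a) {φ : GQ} (hφ : Cyc n φ p)
    (t : Tv (Hm M) (Hm k) T) :
    ((p - 1) * a * p ^ 2 : ℤ) • ∑ s ∈ T, σ s (ZL Z ξ c d k A) =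
      op σ (p - a • MonoidAlgebra.of ℤ GQ φ⁻¹)
        (∑ s ∈ T, σ s (∑ b ∈ range p, ZL Z ξ c d k (A * !![(p : ℤ), b; 0, 1]))) := by
  subst hk
  have := Fact.mk hp
  have pn' : IsCoprime (p : ℤ) n := Nat.isCoprime_iff_coprime.2 ((hp.coprime_iff_not_dvd).2 pn)
  have l1 := Hm_le Mn
  have l2 : Hm (n * p) ≤ Hm n := Hm_le (dvd_mul_right _ _)
  obtain ⟨U, u⟩ := ex_tv (Hm_open y.pos.ne') l1
  obtain ⟨V, v⟩ := ex_tv (Hm_open x.pos.ne') l2
  have e := prim R hD x y hp pn mn pc pA' hU hφ v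
  have f (h) (hh : h ∈ Hm n) : σ h (∑ b ∈ range p, ZL Z ξ c d (n * p) (A * !![(p : ℤ), b; 0, 1])) =
      ∑ b ∈ range p, ZL Z ξ c d (n * p) (A * !![(p : ℤ), b; 0, 1]) := by
    rw [map_sum]
    exact sum_congr rfl fun b _ => fix_q R hD (cx x (y.up hp.pos Cg.rfl (by simpa using pn'))) y.pos mn
      (fun i => by simp [mm]) hh
  generalize ∑ b ∈ range p, ZL Z ξ c d (n * p) (A * !![(p : ℤ), b; 0, 1]) = Q at *
  have q : ∑ s ∈ V, σ s Q = (p - 1 : ℤ) • Q := by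
    rw [sum_tv y.pos pn' v (g := fun _ => Q) fun s k a b => f s ((Uy.cyc_hm y.pos).1
      ((Uy.cyc_congr y.pos (Uy.cyc_dvd x.pos (dvd_mul_right _ _) a)).2 (dvd_sub_comm.1 b))),
      sum_const, card_erase_of_mem (mem_univ _), card_univ, ZMod.card, ← natCast_zsmul,
      Nat.cast_pred hp.pos]
  rw [s_tow (fun h => fix_z R hD x) l1 l2 t u v, s_tow (fun h a => f h (l2 a)) l1 l2 t u v, q, mul_assoc,
    mul_smul, smul_sum, map_sub, map_smul, op_of, map_natCast]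
  simp only [← map_zsmul, e]
  simp only [map_sub, map_zsmul, map_nsmul, sum_sub_distrib, ← smul_sum,
    fun s => s_comm (fun h a => f h (Ha_le y.pos.ne' a)) s φ⁻¹, ← map_sum]
  generalize ∑ s ∈ U, σ s Q = W
  refine congrArg _ ?_
  change _ = (p : AddMonoid.End C) _ - a • σ φ⁻¹ _
  rw [AddMonoid.End.natCast_apply]

/-- **several primes** -/
theorem primL (R : Ru X m Cu σ Z) (hD : DET X m Cu σ Z) {a : ℕ → ℤ} {φ : ℕ → GQ} (l : List ℕ)
    (nd : l.Nodup) (hk : k = n * l.prod) (x : Cx X m Cu ξ N c d k A) (y : Lv c d n A) (mn : m ∣ n)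
    (Mn : M ∣ n) (h : ∀ p ∈ l, p.Prime ∧ ¬ p ∣ n ∧ p.Coprime (c * d) ∧ ¬ (p : ℤ) ∣ A.det ∧
      Uk X ξ p (a p) ∧ ∀ j, ¬ p ∣ j → Cyc j (φ p) p) (t : Tv (Hm M) (Hm k) T) :
    (l.map fun p : ℕ => ((p - 1) * a p * p ^ 2 : ℤ)).prod • ∑ s ∈ T, σ s (ZL Z ξ c d k A) =
      op σ (eu a φ l) (∑ s ∈ T, σ s (ZP Z ξ c d k l.prod A)) := by
  induction l generalizing n A with
  | nil => simp [eu, ZP, ← one_fin_two]
  | cons p l ih =>
    obtain ⟨hp, pn, pc, pA', hU, hφ⟩ := h p (by simp)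
    rw [List.nodup_cons] at nd
    have h' := fun q hq => h q (List.mem_cons_of_mem p hq)
    have ne q (hq : q ∈ l) : ¬ q ∣ p := fun e =>
      nd.1 ((Nat.prime_dvd_prime_iff_eq (h' q hq).1 hp).1 e ▸ hq)
    have pl : ¬ p ∣ n * l.prod := fun e => (hp.dvd_mul.1 e).elim pn fun e =>
      let ⟨q, hq, e⟩ := (Prime.dvd_prod_iff hp.prime).1 e
      ne q hq ((Nat.prime_dvd_prime_iff_eq hp (h' q hq).1).1 e ▸ dvd_rfl)
    have l0 : 0 < l.prod := List.prod_pos fun q hq => (h' q hq).1.pos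
    have pn' : IsCoprime (p : ℤ) n := Nat.isCoprime_iff_coprime.2 ((hp.coprime_iff_not_dvd).2 pn)
    rw [List.prod_cons] at hk
    have e := primN R hD (hk.trans (by ring)) x (y.up l0 (G := 1) (by simpa using Cg.rfl)
      (by simpa using isCoprime_one_left)) hp pl (mn.mul_right _) (Mn.mul_right _) pc pA' hU (hφ _ pl) t
    have i (b : ℕ) := ih (n := n * p) (A := A * !![(p : ℤ), b; 0, 1]) nd.2 (hk.trans (by ring))
      (cx x (hk ▸ y.up (Nat.mul_pos hp.pos l0) Cg.rfl (by simpa using pn')))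
      (y.up hp.pos Cg.rfl (by simpa using pn')) (mn.mul_right _) (Mn.mul_right _) fun q hq =>
        let ⟨a1, a2, a3, a4, a5⟩ := h' q hq
        ⟨a1, fun e => (a1.dvd_mul.1 e).elim a2 (ne q hq), a3, fun e => by
          rw [det_mul] at e
          exact ((Nat.prime_iff_prime_int.1 a1).dvd_or_dvd e).elim a4 fun e =>
            ne q hq (Int.natCast_dvd_natCast.1 (by simpa using e)), a5⟩
    rw [List.map_cons, List.prod_cons, mul_comm, mul_smul, e, ← map_zsmul, eu, List.map_cons,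
      List.prod_cons, map_mul, AddMonoid.End.coe_mul, Function.comp_apply, ← eu]
    refine congrArg _ ?_
    simp only [map_sum] at i ⊢
    rw [sum_comm, smul_sum, sum_congr rfl fun b _ => i b, sum_comm]
    refine sum_congr rfl fun s _ => ?_
    rw [← map_sum, ← map_sum, List.prod_cons, ZP, sum_mul_range]
    refine congrArg _ (congrArg _ (sum_congr rfl fun b _ => sum_congr rfl fun j _ => congrArg _ ?_))
    rw [Matrix.mul_assoc]
    simp

end

end Vale.Agent.P014U.Ol.Pm
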