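import Vale.Agent.P014U.Ol.Odd
import Vale.Agent.P014U.Ol.Smo
import Vale.Agent.P014U.Ol.Pr
import Vale.Agent.P014U.Pm.Rel
import Vale.Agent.P014T.Nr.Kat
import Vale.Agent.P014T.Nr.Srl

/-! # P014U, levels at least three: the raw systems and their relations (helper48) -/

set_option autoImplicit false
set_option linter.all false

open CongruenceSubgroup Finset NumberField
open scoped MatrixGroups Matrix

noncomputable section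

namespace Vale.Agent.P014U.Ol

open Vale.Agent.P014T.Nr
open Vale.Agent.P022 H231.L3 P027M.M P027M.M.Dp
open Dr (Hm Ha Tv Ha_le Hm_le Hm_open Zn Co Ch Cd aa cor cj Raw)
open Vale.Agent.P014T.Pm (Gz op op_of op_int ev ev_of ev_eu eu ZP Uk s_comm)
open Ol.Pm (fix_z primL)

section

variable {X : Mdl} {Ξ C : Type} [AddCommGroup Ξ] [DistribMulAction Au Ξ] [AddCommGroup C] {m : ℕ}
  {Cu : AddSubgroup Ξ} {σ : GQ →* AddMonoid.End C} {Z : Subgroup SL(2, ℤ) → Ξ → FF → FF → C}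
  {ξ : Ξ} {N c e n : ℕ} {A : M2} {g h : GQ} {x : C}

/-- both smoothing numbers -/
theorem smo (R : Ru X m Cu σ Z) (x : Cx X m Cu ξ N c c n A) (s : Sw N A) (he : e ^ 2 % 24 = 1)
    (cN : c ≡ 1 [MOD N]) (eN : e ≡ 1 [MOD N]) (yc : Cyc n g c) (ye : Cyc n h e) :
    Cx X m Cu ξ N e e n A ∧
      op σ (sz e h ^ 2) (ZL Z ξ c c n A) = op σ (sz c g ^ 2) (ZL Z ξ e e n A) := by
  obtain ⟨x1, e1⟩ := smo1 R x s he cN eN yc ye
  obtain ⟨x2, e2⟩ := smo2 R x1 s he cN eN yc ye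
  have f := fun k a => fix_z R (det R) x1 (h := k) (Ha_le x.pos.ne' a)
  rw [← op_sz, ← op_sz] at e1 e2
  refine ⟨x2, ?_⟩
  rw [pow_two, pow_two, op_mul, op_mul, e1, ← e2, op_sz e, op_sz e, sz_comm f, map_sub, map_nsmul,
    map_nsmul]

end

variable [Pp] {X : Mdl} {Ξ : Type} [AddCommGroup Ξ] [DistribMulAction Au Ξ] {m k : ℕ}
  {Cu : AddSubgroup Ξ} {ρ : GQ →* P004F.M2 (Zn k)} {Z : Subgroup SL(2, ℤ) → Ξ → FF → FF → Cl ρ} {ξ : Ξ}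

section

variable {N c d D : ℕ} {S : Finset ℕ} {a : ℕ → ℤ} {Ad : ℕ → Prop} {ι : Type} {s : Finset ι} {w : ι → ℤ}
  {A : ι → M2} {z : ℕ → GQ → Fin 2 → Zn k}

/-- **the raw Euler system** of the classes `∑ w i • ZL (A i)` of level `M D` -/
theorem raw1 (R : Ru X m Cu (sg ρ) Z) (oD : D.Coprime pp) (pc : pp.Coprime (c * d))
    (ad0 : ∀ M, Ad M → M ≠ 0 ∧ pp ∣ M)
    (x : ∀ M, Ad M → ∀ i ∈ s, Cx X m Cu ξ N c d (M * D) (A i) ∧ ¬ (pp : ℤ) ∣ (A i).det)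
    (ad2 : ∀ M, Ad M → Ad (M * pp))
    (adl : ∀ M l, Ad M → l.Prime → l ∉ S → ¬ l ∣ M → Ad (M * l) ∧ ¬ l ∣ D * (c * d) ∧
      Hk X ξ l (a l) ∧ ∀ i ∈ s, ¬ (l : ℤ) ∣ (A i).det)
    (hz : ∀ M, Ad M → Co (Hm M) ρ (z M) ∧
      cl ρ (z M) = ∑ i ∈ s, w i • ZL Z ξ c d (M * D) (A i)) : Raw ρ S a Ad z := by
  have D0 : 0 < D := Nat.pos_of_ne_zero fun e => pp_prime.ne_one (by simpa [e] using oD)
  have key : ∀ M q, Ad (M * q) → D.Coprime q → ∃ T, Tv (Hm M) (Hm (M * q)) T ∧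
      Tv (Hm (M * D)) (Hm (M * D * q)) T ∧ cl ρ (∑ t ∈ T, cj ρ t (z (M * q))) =
        ∑ i ∈ s, w i • ∑ t ∈ T, sg ρ t (ZL Z ξ c d (M * D * q) (A i)) := fun M q h' cop => by
    have e : M * q * D = M * D * q := by ring
    have q0 : 0 < M * D * q := e ▸ Nat.mul_pos (Nat.pos_of_ne_zero (ad0 _ h').1) D0
    obtain ⟨T, t⟩ := ex_tv (Hm_open q0.ne') (Hm_le (dvd_mul_right _ q))
    refine ⟨T, tv_cop q0 cop t, t, ?_⟩
    simp only [map_sum (cl ρ), ← sg_cl]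
    rw [(hz _ h').2, e, sum_sw]
  refine ⟨fun M h => (hz M h).1, fun M h => ?_, fun M l P φ h o hl lM fb => ?_⟩
  · obtain ⟨T, t, t', e⟩ := key M pp (ad2 M h) oD
    refine ⟨T, t, (cl_eq ρ).1 ?_⟩
    rw [e, (hz M h).2]
    exact sum_congr rfl fun i b => by
      rw [d2 R ξ N c d _ _ (x M h i b).1 pp pp_prime ((ad0 M h).2.mul_right _) pc (x M h i b).2 T t']
  · obtain ⟨h0, h1, h2, h3⟩ := adl M l h o.1 hl lM
    have nl : ¬ l ∣ M * D := fun e => (o.1.dvd_mul.1 e).elim lM fun e => h1 (e.mul_right _)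
    obtain ⟨T, t, t', e⟩ := key M l h0 (o.1.coprime_iff_not_dvd.2 fun e => nl (e.mul_left _)).symm
    refine ⟨T, t, (cl_eq ρ).1 ?_⟩
    rw [map_nsmul, e, map_add, map_sub, map_nsmul, map_zsmul, ← sg_cl, ← sg_cl, (hz M h).2]
    exact sum_eu fun i b => dl R ξ N c d _ _ (x M h i b).1 l (a l) φ o.1 nl
      (o.1.coprime_iff_not_dvd.2 fun e => h1 (e.mul_left _)) (h3 i b) h2 (fb_cyc o fb nl) T t'

end

variable {N c c' M M' : ℕ} {s : Finset ℕ} {a : ℕ → ℤ} {B : Type} [CommRing B] {ι : Zn k →+* B}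
  {Ψ : GQ →* B} {y y' : GQ → Fin 2 → Zn k} {g₀ : GQ}

/-- **the relation** -/
theorem zrel (R : Ru X m Cu (sg ρ) Z) (γ : SL(2, ℤ)) (hM : M = M' * ∏ p ∈ s, p)
    (x : Cx X m Cu ξ N c c M γ) (y0 : Pm.Lv c' c' M' γ) (cN : c ≡ 1 [MOD N]) (cN' : c' ≡ 1 [MOD N])
    (mM : m ∣ M') (φ : ℕ → GQ) (yc : Cyc M (φ c) c) (yc' : Cyc M (φ c') c')
    (hs : ∀ p ∈ s, p.Prime ∧ ¬ p ∣ M' ∧ p.Coprime c' ∧ Uk X ξ p (a p) ∧ ∀ j, ¬ p ∣ j → Cyc j (φ p) p)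
    (cd : Cd M' Ψ) (co : Co (Hm M) ρ y) (co' : Co (Hm M) ρ y') (e : cl ρ y = ZL Z ξ c c M γ)
    (e' : cl ρ y' = ZP Z ξ c' c' M (∏ p ∈ s, p) γ) (hg : g₀ ∈ Ha) :
    Ch ⊤ (aa ρ ι Ψ)
      ((ι (ρ g₀ - 1).det ^ 2 * (∏ p ∈ s, (p - 1) * a p * p ^ 2 : ℤ) *
        (c' ^ 2 - c' * Ψ (φ c')⁻¹) ^ 2) • cor ρ ι Ψ (Hm M) y)
      ((ι (ρ g₀ - 1).det ^ 2 * (c ^ 2 - c * Ψ (φ c)⁻¹) ^ 2 * ∏ p ∈ s, (p - a p * Ψ (φ p))) •
        cor ρ ι Ψ (Hm M) y') := by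
  have M0 := x.pos.ne'
  have le : Hm M ≤ Hm M' := Hm_le ⟨_, hM⟩
  obtain ⟨T, t⟩ := ex_tv (Hm_open M0) le
  obtain ⟨x', r⟩ := smo R x (sw_sl γ) y0.hc cN cN' yc yc'
  have f := fun {c} (x : Cx X m Cu ξ N c c M γ) k a => fix_z R (det R) x (h := k) (Ha_le M0 a)
  have p := primL R (det R) (a := a) (φ := φ) s.toList s.nodup_toList (by rwa [prod_toList]) x' y0 mM
    dvd_rfl (fun p b => by
      obtain ⟨h1, h2, h3, h4, h5⟩ := hs p (mem_toList.1 b)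
      exact ⟨h1, h2, h3.mul_right h3, fun d => h1.not_dvd_one (Int.natCast_dvd_natCast.1 (by simpa using d)), h4, h5⟩) t
  rw [prod_toList, prod_map_toList] at p
  have q : ∀ u, Ch ⊤ (aa ρ ι Ψ) u u := fun u => ⟨0, by simp⟩
  have := P014U.Pm.rel (ι := ι) (e := (∏ p ∈ s, (p - 1) * a p * p ^ 2 : ℤ) * sz c' (φ c') ^ 2)
    (e' := sz c (φ c) ^ 2 * eu a φ s.toList) cd (Hm_open M0) (Hm_open M0) (Ha_le M0) (Ha_le M0) le le
    co co' t t (by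
      rw [e, e', op_mul, op_mul, op_int, ← p, map_zsmul, sz_sum (f x), r, sz_sum (f x')])
    hg (q _) (q _)
  simp only [smul_smul, map_mul, map_pow, ev_sz, ev_eu, map_intCast, prod_map_toList] at this
  convert this using 2 <;> ring

/-- **change of the level** at a prime which divides it -/
theorem zup (R : Ru X m Cu (sg ρ) Z) {d l : ℕ} {A : M2} (x : Cx X m Cu ξ N c d M A) (hl : l.Prime)
    (lM : l ∣ M) (lc : l.Coprime (c * d)) (lA : ¬ (l : ℤ) ∣ A.det) (cd : Cd M Ψ)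
    (co : Co (Hm (M * l)) ρ y) (co' : Co (Hm M) ρ y') (e : cl ρ y = ZL Z ξ c d (M * l) A)
    (e' : cl ρ y' = ZL Z ξ c d M A) (hg : g₀ ∈ Ha) :
    Ch ⊤ (aa ρ ι Ψ) (ι (ρ g₀ - 1).det ^ 2 • cor ρ ι Ψ (Hm (M * l)) y)
      (ι (ρ g₀ - 1).det ^ 2 • cor ρ ι Ψ (Hm M) y') := by
  have M0 := x.pos.ne'
  have M1 := mul_ne_zero M0 hl.ne_zero
  have le : Hm (M * l) ≤ Hm M := Hm_le (dvd_mul_right _ _)
  obtain ⟨T, t⟩ := ex_tv (Hm_open M1) le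
  have q : ∀ u, Ch ⊤ (aa ρ ι Ψ) u u := fun u => ⟨0, by simp⟩
  simpa using P014U.Pm.rel (ι := ι) (e := 1) (e' := 1) cd (Hm_open M1) (Hm_open M0) (Ha_le M1) (Ha_le M0)
    le le_rfl co co' t (P014T.Pm.tv_one _) (by
      rw [e, e', d2 R ξ N c d _ _ x l hl lM lc lA T t, sum_singleton, map_one (sg ρ)]
      rfl) hg (q _) (q _)

end Vale.Agent.P014U.Ol
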