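import Vale.Agent.P014U.Ol.Two

/-! # P014U, levels at least three: the Hecke term (helper48) -/

set_option autoImplicit false
set_option linter.all false

open CongruenceSubgroup Finset
open scoped MatrixGroups Matrix

noncomputable section

namespace Vale.Agent.P014U.Ol

open Vale.Agent.P014T Vale.Agent.P014T.Nr

open Vale.Agent.P022 H231.L3 P027M.M P027M.M.Dp P022K.QT.Cu
open Vale.Agent.P014T.Dr (Hm Ha Tv Ha_le Hm_le)

variable {n l : ℕ}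

theorem d1_pos (l0 : 0 < l) : 0 < (!![(l : ℤ), 0; 0, 1] : M2).det := by simpa using l0

theorem d2_pos (l0 : 0 < l) (j : ℤ) : 0 < (!![1, j; 0, (l : ℤ)] : M2).det := by simpa using l0

theorem pA_pA (X : Mdl) (l0 : 0 < l) : pA X _ (d1_pos l0) * pA X _ (d2_pos l0 0) = 1 := by
  have hA : 0 < (!![(l : ℤ), 0; 0, (l : ℤ)] : M2).det := by simpa using l0.ne'
  rw [← pA_mul X _ _ (mul_pos' (d2_pos l0 0) (d1_pos l0)), pA_congr X (by simp) _ hA]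
  refine Subtype.ext (RingEquiv.ext fun f => ?_)
  obtain ⟨n, n0, x, e⟩ := ex_lev f
  refine (e.pb X n0 0 l0 l0 hA).inj (Nat.mul_pos n0 l0) ?_
  have : rs (E ((0 : ℤ) / (n * l : ℕ))) (E_ne _) x = x := by
    ext k
    simp [coeff_rs, E_zero]
  rw [this]
  exact e.up n0 l0

theorem sum_zmod {M : Type} [AddCommMonoid M] (p : ℕ) [NeZero p] (f : ℕ → M) :
    ∑ i : ZMod p, f i.val = ∑ i ∈ range p, f i := prod_zmod (M := Multiplicative M) p f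

theorem mul_ext {A B : M2} (h : (A 0 0 = B 0 0 ∧ A 0 1 = B 0 1) ∧ A 1 0 = B 1 0 ∧ A 1 1 = B 1 1) :
    A = B := by
  ext i j
  revert i j
  simpa only [Fin.forall_fin_two] using h

theorem Ga_mk {a b c d : ℤ} {h : a * d - b * c = 1} : mk a b c d h ∈ Gamma n ↔
    ((n : ℤ) ∣ a - 1 ∧ (n : ℤ) ∣ b) ∧ (n : ℤ) ∣ c ∧ (n : ℤ) ∣ d - 1 := by
  rw [mem_Ga]
  simp [Cg, Fin.forall_fin_two, mk00, mk01, mk10, mk11]

theorem of_Ga {γ : SL(2, ℤ)} (h : γ ∈ Gamma n) :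
    ((n : ℤ) ∣ γ 0 0 - 1 ∧ (n : ℤ) ∣ γ 0 1) ∧ (n : ℤ) ∣ γ 1 0 ∧ (n : ℤ) ∣ γ 1 1 - 1 := by
  simpa [Cg, Fin.forall_fin_two] using mem_Ga.1 h

section

variable (k : IsCoprime (l : ℤ) n)
include k

theorem up_Gu {γ : SL(2, ℤ)} (h : γ ∈ Gamma n ⊓ Gamma0 l) : ∃ g ∈ Gamma n ⊓ Gu l,
    !![(l : ℤ), 0; 0, 1] * (γ : M2) = (g : M2) * !![(l : ℤ), 0; 0, 1] := by
  obtain ⟨q, e⟩ := mem_G0.1 h.2
  obtain ⟨⟨a, b⟩, c, d⟩ := of_Ga h.1
  refine ⟨mk (γ 0 0) (l * γ 0 1) q (γ 1 1) (by linear_combination det' γ + γ 0 1 * e),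
    ⟨Ga_mk.2 ⟨⟨a, b.mul_left _⟩, k.symm.dvd_of_dvd_mul_left (e ▸ c), d⟩, dvd_mul_right _ _⟩,
    mul_ext ?_⟩
  simp [mm, mk00, mk01, mk10, mk11, e, mul_comm]

theorem down_Gu {g : SL(2, ℤ)} (h : g ∈ Gamma n ⊓ Gu l) : ∃ γ ∈ Gamma n ⊓ Gamma0 l,
    !![(l : ℤ), 0; 0, 1] * (γ : M2) = (g : M2) * !![(l : ℤ), 0; 0, 1] ∧
    !![1, 0; 0, (l : ℤ)] * (g : M2) = (γ : M2) * !![1, 0; 0, (l : ℤ)] := by
  obtain ⟨q, e⟩ := mem_Gu.1 h.2
  obtain ⟨⟨a, b⟩, c, d⟩ := of_Ga h.1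
  refine ⟨mk (g 0 0) q (l * g 1 0) (g 1 1) (by linear_combination det' g + g 1 0 * e),
    ⟨Ga_mk.2 ⟨⟨a, k.symm.dvd_of_dvd_mul_left (e ▸ b)⟩, c.mul_left _, d⟩,
      mem_G0.2 (dvd_mul_right _ _)⟩, mul_ext ?_, mul_ext ?_⟩ <;>
  simp [mm, mk00, mk01, mk10, mk11, e, mul_comm]

end

variable [hl : Fact l.Prime]

/-- representatives -/
def rpz (n : ℕ) (r : SL(2, ℤ)) : Option (ZMod l) → SL(2, ℤ)
  | none => r
  | some j => tr (n * j.val)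

theorem gu_iff {γ δ : SL(2, ℤ)} : γ * δ⁻¹ ∈ Gu l ↔ (γ 0 1 * δ 0 0 : ZMod l) = γ 0 0 * δ 0 1 := by
  rw [mem_Gu, mul01, inv01, inv11, ← ZMod.intCast_zmod_eq_zero_iff_dvd]
  push_cast
  exact ⟨fun h => by linear_combination h, fun h => by linear_combination h⟩

theorem reps_Gu (ln : ¬ l ∣ n) {r : SL(2, ℤ)} (m : r ∈ Gamma n) (r0 : (r 0 0 : ZMod l) = 0)
    (r1 : (r 0 1 : ZMod l) = -1) : Reps (Gamma n) (Gamma n ⊓ Gu l) (rpz (l := l) n r) := by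
  have n0 : (n : ZMod l) ≠ 0 := mt (ZMod.natCast_eq_zero_iff _ _).1 ln
  have a : ∀ i : Option (ZMod l), rpz n r i ∈ Gamma n := by
    rintro (_ | j)
    exacts [m, (Ga_mk (h := by ring)).2 (by simp)]
  refine ⟨a, fun γ h => ?_, ?_⟩
  · by_cases e : (γ 0 0 : ZMod l) = 0
    · exact ⟨none, (Gamma n).mul_mem h (inv_mem m), gu_iff.2 (by simp [rpz, r0, e])⟩
    · refine ⟨some (γ 0 1 / (γ 0 0 * n)), (Gamma n).mul_mem h (inv_mem (a _)), gu_iff.2 ?_⟩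
      simp [rpz, tr, mk00, mk01]
      field_simp
  · rintro (_ | i) (_ | j) h <;> have := gu_iff.1 h.2 <;>
      simp [rpz, tr, mk00, mk01, r0, r1, n0] at this ⊢
    exact this

variable {X : Mdl} {Ξ C : Type} [AddCommGroup Ξ] [DistribMulAction Au Ξ] [AddCommGroup C] {m : ℕ}
  {Cu : AddSubgroup Ξ} {σ : GQ →* AddMonoid.End C} {Z : Subgroup SL(2, ℤ) → Ξ → FF → FF → C}
  {ξ : Ξ} {N c d : ℕ} {A : M2} {u v : FF}

theorem hk_sum (h : Cx X m Cu ξ N c d n A) (ln : ¬ l ∣ n) {a : ℤ} (k : Hk X ξ l a) {r : SL(2, ℤ)}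
    (m : r ∈ Gamma n) (r0 : (r 0 0 : ZMod l) = 0) :
    ∑ i, pS X (rpz (l := l) n r i) • pA X _ (d2_pos hl.out.pos 0) • ξ = a • ξ := by
  have n0 : (n : ZMod l) ≠ 0 := mt (ZMod.natCast_eq_zero_iff _ _).1 ln
  rw [← k (fun j => d2_pos hl.out.pos j) (d1_pos hl.out.pos), Fintype.sum_option, add_comm,
    ← sum_zmod]
  congr 1
  · refine Fintype.sum_equiv (Equiv.mulLeft₀ _ n0) _ _ fun j => ?_
    obtain ⟨q, e⟩ : (l : ℤ) ∣ n * j.val - ((n * j).val : ℕ) :=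
      (ZMod.intCast_zmod_eq_zero_iff_dvd _ _).1 (by simp)
    rw [← mul_smul, pS_pA X _ (d2_pos hl.out.pos ((n * j).val : ℕ)) (g := tr q) (mul_ext (by
      simp only [mm, rpz, tr, mk00, mk01, mk10, mk11]
      simp [-ZMod.natCast_val]
      linear_combination e)), mul_smul, h.inv _ (mem_G0.2 (dvd_zero _))]
    rfl
  · obtain ⟨q, e⟩ := (ZMod.intCast_zmod_eq_zero_iff_dvd _ _).1 r0
    rw [← mul_smul, pS_pA X _ (d1_pos hl.out.pos) (g := mk q (r 0 1) (r 1 0) (l * r 1 1)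
      (by linear_combination det' r - r 1 1 * e)) (mul_ext (by
        simp [mm, rpz, mk00, mk01, mk10, mk11, e, mul_comm])), mul_smul,
      h.inv (mk _ _ _ _ _) (mem_G0.2 ((Int.natCast_dvd_natCast.2 h.nd).trans (of_Ga m).2.1))]

variable (R : Ru X m Cu σ Z) (h : Cx X m Cu ξ N c d n A) (ln : ¬ l ∣ n)
  (hu : Un X (Gamma n) u) (hv : Un X (Gamma n) v)
include h ln

theorem ex_r : ∃ r ∈ Gamma n, (r 0 0 : ZMod l) = 0 ∧ (r 0 1 : ZMod l) = -1 := by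
  obtain ⟨r, a, b⟩ := lift_cop h.pos hl.out.pos (cop hl.out ln) (G := !![0, -1; 1, 0]) (by simp)
  exact ⟨r, a, by simpa using cast_eq (b 0 0), by simpa using cast_eq (b 0 1)⟩

omit ln in
theorem lev_Gu : Lev (Gamma n ⊓ Gu l) :=
  h.ok.lev.mono inf_le_left (Nat.mul_pos h.pos hl.out.pos) (le_inf (Ga_le (dvd_mul_right _ _))
    fun _ m => (of_Ga (Ga_le (dvd_mul_left l n) m)).1.2)

omit ln in
theorem lev_G0 : Lev (Gamma n ⊓ Gamma0 l) :=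
  h.ok.lev.mono inf_le_left (Nat.mul_pos h.pos hl.out.pos) (le_inf (Ga_le (dvd_mul_right _ _))
    (Ga_G0 (dvd_mul_left l n)))

include R hu hv

/-- **the Hecke term** -/
theorem hecke {a : ℤ} (k : Hk X ξ l a) :
    Z (Gamma n ⊓ Gamma0 l) ξ (X.pb _ (d1_pos hl.out.pos) u) (X.pb _ (d1_pos hl.out.pos) v) =
      a • Z (Gamma n) ξ u v := by
  obtain ⟨r, m, r0, r1⟩ := ex_r h ln
  have o : Ok X Cu (Gamma n ⊓ Gu l) (pA X _ (d2_pos hl.out.pos 0) • ξ) u v :=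
    ⟨lev_Gu h, xi_pb R h.xi _ (fun γ a => (down_Gu (cop hl.out ln) a).imp fun _ b => ⟨b.1.1, b.2.2⟩)
      fun g _ => comm_D X one_pos hl.out.pos _ g, hu.mono inf_le_left, hv.mono inf_le_left⟩
  have := R.conj _ _ _ _ _ _ (d1_pos hl.out.pos) (fun γ => up_Gu (cop hl.out ln))
    (fun γ a => (down_Gu (cop hl.out ln) a).imp fun _ b => ⟨b.1, b.2.1⟩)
    (fun g _ => comm_D X hl.out.pos one_pos _ g) o (lev_G0 h)
  rw [← mul_smul, pA_pA X hl.out.pos, one_smul] at this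
  rw [this, R.res _ _ _ _ _ _ _ inf_le_left (reps_Gu ln m r0 r1) h.ok.lev hu hv o,
    hk_sum h ln k m r0, R.zsmul ⟨h.ok.lev, h.xi, hu, hv⟩]

theorem index : Z (Gamma n ⊓ Gamma0 l) ξ u v = (l + 1) • Z (Gamma n) ξ u v := by
  obtain ⟨r, m, r0, r1⟩ := ex_r h ln
  have o : Ok X Cu (Gamma n) ξ u v := ⟨h.ok.lev, h.xi, hu, hv⟩
  have := R.cjS r (Γ' := Gamma n ⊓ Gamma0 l) (fun δ => and_congr (by
    change _ ∈ Gamma n ↔ δ ∈ Gamma n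
    rw [(Gamma_normal n).mem_comm_iff, inv_mul_cancel_left]) (by
    change _ ∈ Gu l ↔ δ ∈ Gamma0 l
    simp [gu_iff, mul00, mul01, r0, r1, eq_comm (a := (0 : ZMod l))])) (o.mono inf_le_left (lev_Gu h)) (lev_G0 h)
  rw [h.xi.inv r m, pg_self X hu.mem m, pg_self X hv.mem m] at this
  rw [this, R.idx inf_le_left (reps_Gu ln m r0 r1) (lev_Gu h) o, Fintype.card_option, ZMod.card]

end Vale.Agent.P014U.Ol
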