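import Vale.Agent.P014T.Nr.Rul
import Vale.Agent.P014U.Ol.St

/-! # P014U, levels at least three: derived rules, the action of `K₀(N)`, sums over Galois conjugates (helper48) -/

set_option autoImplicit false
set_option linter.all false

open CongruenceSubgroup Finset
open scoped MatrixGroups Matrix

noncomputable section

namespace Vale.Agent.P014U.Ol

open Vale.Agent.P014T Vale.Agent.P014T.Nr

open Vale.Agent.P022 H231.L3 P027M.M P027M.M.Dp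
open Vale.Agent.P014T.Dr (Hm Ha Tv Ha_le Hm_le)
open Sg

variable {X : Mdl} {Ξ C : Type} [AddCommGroup Ξ] [DistribMulAction Au Ξ] [AddCommGroup C] {m : ℕ}
  {Cu : AddSubgroup Ξ} {σ : GQ →* AddMonoid.End C} {Z : Subgroup SL(2, ℤ) → Ξ → FF → FF → C}
  {Γ Γ' : Subgroup SL(2, ℤ)} {ξ : Ξ} {u u' v v' : FF}

theorem Lev.mono (h : Lev Γ) (le : Γ' ≤ Γ) {n : ℕ} (n0 : 0 < n) (k : Gamma n ≤ Γ') : Lev Γ' :=
  ⟨⟨n, n0, k⟩, h.hi.imp fun _ a => ⟨a.1, le.trans a.2⟩⟩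

theorem lev_Ga {n : ℕ} (n0 : 0 < n) (h : 3 ≤ n) : Lev (Gamma n) := ⟨⟨n, n0, le_rfl⟩, n, h, le_rfl⟩

variable (X) in
theorem gal_L {n : ℕ} (n0 : 0 < n) (g : GQ) (f : FF) : X.gal g f ∈ L (Gamma n) ↔ f ∈ L (Gamma n) := by
  have k : ∀ (g : GQ) f, f ∈ L (Gamma n) → X.gal g f ∈ L (Gamma n) := fun g f m =>
    (mem_L' X).2 fun δ a => by
      have l : Lv (n * 4) := ⟨by positivity, dvd_mul_left _ _⟩
      obtain ⟨k, e⟩ := cyc_ex l.pos g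
      obtain ⟨s, t, c⟩ := cyc_cop l.pos e
      have d := det' δ
      obtain ⟨γ, b⟩ := lift (n := (n * 4 : ℕ)) (G := !![δ 0 0, s * δ 0 1; k * δ 1 0, δ 1 1])
        (Nat.cast_ne_zero.2 l.pos.ne') ⟨t * δ 0 1 * δ 1 0, by
          rw [Matrix.det_fin_two_of]
          linear_combination d - δ 0 1 * δ 1 0 * c⟩
      have q : (n : ℤ) ∣ (n * 4 : ℕ) := by simp
      have a' := mem_Ga.1 a
      have m' : γ ∈ Gamma n := mem_Ga.2 (Cg.trans (fun i j => q.trans (b i j)) (by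
        simp only [Cg, Fin.forall_fin_two] at a' ⊢
        simp at a' ⊢
        exact ⟨⟨a'.1.1, a'.1.2.mul_left _⟩, a'.2.1.mul_left _, a'.2.2⟩))
      rw [← (x_shim X _ l g k e).2 γ δ ⟨dvd_sub_comm.1 (b 0 0), ?_, dvd_sub_comm.1 (b 1 0),
        dvd_sub_comm.1 (b 1 1)⟩ f (L_Gt ▸ L_mono (Ga_le (dvd_mul_right n 4)) m), (mem_L' X).1 m γ m']
      obtain ⟨w, b⟩ := b 0 1
      exact ⟨t * δ 0 1 - k * w, by
        change γ 0 1 - s * δ 0 1 = _ at b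
        linear_combination -k * b - δ 0 1 * c⟩
  refine ⟨fun m => ?_, k g f⟩
  have := k g⁻¹ _ m
  rwa [map_inv, show (X.gal g)⁻¹ (X.gal g f) = f from (X.gal g).symm_apply_apply f] at this

theorem Ok.mono (h : Ok X Cu Γ ξ u v) (le : Γ' ≤ Γ) (k : Lev Γ') : Ok X Cu Γ' ξ u v :=
  ⟨k, h.xi.mono le, h.u1.mono le, h.u2.mono le⟩

theorem Ok.swap (h : Ok X Cu Γ ξ u v) : Ok X Cu Γ ξ v u := ⟨h.lev, h.xi, h.u2, h.u1⟩

variable (R : Ru X m Cu σ Z)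
include R

theorem xi_pb (h : Xi X Cu Γ ξ) {A : M2} (hA : 0 < A.det) (k : Cj A Γ Γ')
    (c : ∀ h ∈ Ha, gA X h * pA X A hA = pA X A hA * gA X h) : Xi X Cu Γ' (pA X A hA • ξ) :=
  ⟨R.cu _ _ _ h.cu, fun γ m => by
    obtain ⟨g, a, e⟩ := k γ m
    rw [← mul_smul, pS_pA X hA hA e, mul_smul, h.inv g a],
    fun g m => by rw [← mul_smul, c g m, mul_smul, h.fix g m]⟩

theorem Ru.zsmul (h : Ok X Cu Γ ξ u v) (a : ℤ) : Z Γ (a • ξ) u v = a • Z Γ ξ u v :=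
  map_zsmul (AddMonoidHom.mk' (fun x : xi X Cu Γ => Z Γ x u v) fun x y =>
    R.add _ _ _ _ _ ⟨h.lev, x.2, h.u1, h.u2⟩ y.2) a ⟨ξ, h.xi⟩

theorem Ru.mr (h : Ok X Cu Γ ξ u v) (k : Un X Γ v') : Z Γ ξ u (v * v') = Z Γ ξ u v + Z Γ ξ u v' := by
  rw [R.skew _ _ _ _ ⟨h.lev, h.xi, h.u2.mul k, h.u1⟩, R.ml _ _ _ _ _ h.swap k, neg_add,
    ← R.skew _ _ _ _ h.swap, ← R.skew _ _ _ _ ⟨h.lev, h.xi, k, h.u1⟩]

theorem Ru.prod_l (l : Lev Γ) (x : Xi X Cu Γ ξ) (k : Un X Γ v) {ι : Type} {s : Finset ι} {f : ι → FF}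
    (h : ∀ i ∈ s, Un X Γ (f i)) : Z Γ ξ (∏ i ∈ s, f i) v = ∑ i ∈ s, Z Γ ξ (f i) v := by
  classical
  induction s using Finset.induction_on with
  | empty => simpa using R.ml _ _ 1 1 v ⟨l, x, un_one, k⟩ un_one
  | insert i s a b =>
    rw [prod_insert a, sum_insert a, R.ml _ _ _ _ _ ⟨l, x, h i (mem_insert_self _ _), k⟩
      (un_prod fun j c => h j (mem_insert_of_mem c)), b fun j c => h j (mem_insert_of_mem c)]

/-- the index rule -/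
theorem Ru.idx {ι : Type} [Fintype ι] {r : ι → SL(2, ℤ)} (le : Γ' ≤ Γ) (t : Reps Γ Γ' r) (l : Lev Γ')
    (h : Ok X Cu Γ ξ u v) : Z Γ' ξ u v = Fintype.card ι • Z Γ ξ u v := by
  rw [R.res Γ Γ' ξ u v ι r le t h.lev h.u1 h.u2 (h.mono le l),
    sum_congr rfl fun i _ => h.xi.inv _ (t.mem i), sum_const, card_univ, ← natCast_zsmul,
    R.zsmul h, natCast_zsmul]

theorem Ru.cjS (γ : SL(2, ℤ)) (k : ∀ δ, γ * δ * γ⁻¹ ∈ Γ ↔ δ ∈ Γ') (h : Ok X Cu Γ ξ u v) (l : Lev Γ') :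
    Z Γ' (pS X γ • ξ) (X.pg γ u) (X.pg γ v) = Z Γ ξ u v :=
  R.conj Γ Γ' ξ u v γ (SL_pos γ) (cj_SL fun δ => (k δ).2) (fun g a => ⟨γ⁻¹ * g * γ, (k _).1 (by
    simpa [mul_assoc] using a), congrArg Subtype.val (show γ * (γ⁻¹ * g * γ) = g * γ by group)⟩)
    (fun _ => comm_S X γ) h l

variable {c d n p N : ℕ} {w : Fin 2 → ℤ}

/-- norms over orbits, second variable -/
theorem Ru.orb2 (hc : c ^ 2 % 24 = 1) (n0 : 0 < n) (l : Lev Γ) (lo : Gamma n ≤ Γ) (x : Xi X Cu Γ ξ)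
    (k : Un X Γ u) (z : Nz c (vL n w)) {O : Type} {W : O → Fin 2 → ℤ} (s : Finset O)
    (inj : ∀ e e', Cv n (W e) (W e') → e = e') (h1 : ∀ e ∈ s, ∃ γ ∈ Γ, Cv n (w ᵥ* γ) (W e))
    (h2 : ∀ γ ∈ Γ, ∃ e ∈ s, Cv n (w ᵥ* γ) (W e)) :
    Un X Γ (∏ e ∈ s, gs c n (W e)) ∧
      Z (Γ ⊓ St n w) ξ u (gs c n w) = Z Γ ξ u (∏ e ∈ s, gs c n (W e)) := by
  obtain ⟨r, t, e⟩ := reps_orb s inj h1 h2
  have a := gs_un X hc n0 z (inf_le_right (a := Γ))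
  rw [← prod_coe_sort, ← prod_congr rfl fun i _ => (gs_pg X hc z (r i)).trans (gs_cv hc n0 (e i))]
  exact ⟨a.nrm t, R.nrm _ _ _ _ _ _ r inf_le_left t l x k ⟨l.mono inf_le_left n0
    (le_inf lo (Ga_St w)), x.mono inf_le_left, k.mono inf_le_left, a⟩⟩

/-- norms over orbits, first variable -/
theorem Ru.orb1 (hc : c ^ 2 % 24 = 1) (n0 : 0 < n) (l : Lev Γ) (lo : Gamma n ≤ Γ) (x : Xi X Cu Γ ξ)
    (k : Un X Γ u) (z : Nz c (vL n w)) {O : Type} {W : O → Fin 2 → ℤ} (s : Finset O)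
    (inj : ∀ e e', Cv n (W e) (W e') → e = e') (h1 : ∀ e ∈ s, ∃ γ ∈ Γ, Cv n (w ᵥ* γ) (W e))
    (h2 : ∀ γ ∈ Γ, ∃ e ∈ s, Cv n (w ᵥ* γ) (W e)) :
    Un X Γ (∏ e ∈ s, gs c n (W e)) ∧
      Z (Γ ⊓ St n w) ξ (gs c n w) u = Z Γ ξ (∏ e ∈ s, gs c n (W e)) u := by
  obtain ⟨a, b⟩ := R.orb2 hc n0 l lo x k z s inj h1 h2
  refine ⟨a, ?_⟩
  rw [R.skew _ _ _ _ ⟨l, x, k, a⟩, ← b, R.skew _ _ _ _ ⟨l.mono inf_le_left n0 (le_inf lo (Ga_St w)),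
    x.mono inf_le_left, k.mono inf_le_left, gs_un X hc n0 z inf_le_right⟩]

variable {A A' : M2}

omit R in
theorem Cx.xi (h : Cx X m Cu ξ N c d n A) : Xi X Cu (Gamma n) ξ :=
  ⟨h.cu, fun γ a => h.inv γ (Ga_G0 h.nd a), fun g _ => h.fix g⟩

omit R in
theorem Cx.ok (h : Cx X m Cu ξ N c d n A) : Ok X Cu (Gamma n) ξ (gs c n (A 0)) (gs d n (A 1)) :=
  ⟨lev_Ga h.pos h.four, h.xi, gs_un X h.hc h.pos h.n0 (Ga_St _), gs_un X h.hd h.pos h.n1 (Ga_St _)⟩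

omit R in
theorem Cx.up (h : Cx X m Cu ξ N c d n A) (p0 : 0 < p) (k : Cg n A' A) :
    Cx X m Cu ξ N c d (n * p) A' :=
  ⟨h.hc, h.hd, Nat.mul_pos h.pos p0, h.four.trans (Nat.le_mul_of_pos_right n p0), h.md.mul_right p, h.nd.mul_right p, h.cu,
    h.inv, h.fix, Nz.up h.pos p0 h.n0 (k 0), Nz.up h.pos p0 h.n1 (k 1)⟩

omit R in
theorem Cx.of (h : Cx X m Cu ξ N c d n A) (n0 : Nz c (vL n (A' 0))) (n1 : Nz d (vL n (A' 1))) :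
    Cx X m Cu ξ N c d n A' := ⟨h.hc, h.hd, h.pos, h.four, h.md, h.nd, h.cu, h.inv, h.fix, n0, n1⟩

theorem det : DET X m Cu σ Z := fun ξ N c d n A h G A' g k y a b e => by
  obtain ⟨s, t, k1⟩ := cyc_cop h.pos y
  obtain ⟨q, b⟩ := b
  obtain ⟨γ, f⟩ := lift (n := n) (G := !![G 0 0, G 0 1; s * G 1 0, s * G 1 1])
    (Nat.cast_ne_zero.2 h.pos.ne') ⟨s * q - t, by
      rw [Matrix.det_fin_two] at b
      rw [Matrix.det_fin_two_of]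
      linear_combination s * b + k1⟩
  have m0 : γ ∈ Gamma0 N := mem_G0.2 (by
    simpa using ((Int.natCast_dvd_natCast.2 h.nd).trans (f 1 0)).add (a.mul_left s))
  have v : ∀ i, Cv n (A' i) (![A i 0, k * A i 1] ᵥ* γ) := fun i =>
    Cv.trans (e i) (Cv.trans (fun j => ⟨t * A i 1 * G 1 j, by
      rw [mm, vm]
      fin_cases j <;> simp <;> [linear_combination -A i 1 * G 1 0 * k1;
        linear_combination -A i 1 * G 1 1 * k1]⟩) (Cv.mul Cv.rfl f.symm))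
  have z0 := nz_gal h.pos h.n0 ⟨s, t, k1⟩
  have z1 := nz_gal h.pos h.n1 ⟨s, t, k1⟩
  have o := (h.of (A' := !![A 0 0, k * A 0 1; A 1 0, k * A 1 1]) z0 z1).ok
  have r := R.gal _ _ ξ _ _ g k (cyc_dvd h.pos h.md y) (gal_L X h.pos g) h.ok
  rw [h.fix, gs_gal X h.hc h.pos h.n0 y, gs_gal X h.hd h.pos h.n1 y] at r
  rw [ZL_eq, ZL_eq, ← r o, gs_cv h.hc h.pos (v 0), gs_cv h.hd h.pos (v 1), ← gs_pg X h.hc z0,
    ← gs_pg X h.hd z1]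
  have := R.cjS γ (fun δ => by rw [(Gamma_normal n).mem_comm_iff, inv_mul_cancel_left]) o o.lev
  rwa [h.inv γ m0] at this

theorem Ru.one (h : Cx X m Cu ξ N c d n A) {k : ℤ} (e : (m : ℤ) ∣ k - 1) (g : GQ) :
    k • σ g (ZL Z ξ c d n A) = σ g (ZL Z ξ c d n A) := by
  obtain ⟨q, e⟩ := e
  rw [sub_eq_iff_eq_add.1 e, add_smul, one_smul, mul_comm, mul_smul, natCast_zsmul, ← map_nsmul,
    ZL_eq, R.tor _ _ _ _ h.ok, map_zero, smul_zero, zero_add]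

/-- sums over Galois conjugates -/
theorem Ru.gsum (h : Cx X m Cu ξ N c d n A) (p0 : 0 < p) {ι : Type} (s : Finset ι) (κ : ι → ℤ)
    (B : ι → M2) (h1 : ∀ i ∈ s, (n : ℤ) ∣ κ i - 1 ∧ IsCoprime (κ i) (n * p : ℕ))
    (h2 : ∀ i ∈ s, ∀ j ∈ s, ((n * p : ℕ) : ℤ) ∣ κ i - κ j → i = j)
    (h3 : ∀ k : ℤ, (n : ℤ) ∣ k - 1 → IsCoprime k (n * p : ℕ) → ∃ i ∈ s, ((n * p : ℕ) : ℤ) ∣ k - κ i)
    (h4 : ∀ i ∈ s, ∃ G : M2, Cg n G 1 ∧ ((n * p : ℕ) : ℤ) ∣ G.det - κ i ∧ Cg (n * p : ℕ) (B i) (A * G))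
    {T : Finset GQ} (t : Tv (Hm n) (Hm (n * p)) T) :
    ∑ t ∈ T, σ t (ZL Z ξ c d (n * p) A) = ∑ i ∈ s, ZL Z ξ c d (n * p) (B i) := by
  have n0 := Nat.mul_pos h.pos p0
  have : ∀ g ∈ T, ∃ i ∈ s, Cyc (n * p) g (κ i) := fun g a => by
    obtain ⟨k, y⟩ := cyc_ex n0 g
    obtain ⟨i, b, e⟩ := h3 k ((cyc_congr h.pos (cyc_dvd n0 (dvd_mul_right n p) y)).1
      ((cyc_one h.pos).2 (t.1 g a))) (cyc_cop n0 y)
    exact ⟨i, b, (cyc_congr n0 y).2 e⟩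
  choose f a y using this
  refine sum_bij f a (fun g b g' b' e => ?_) (fun i b => ?_) fun g b => ?_
  · exact (t.2 g' (t.1 g' b')).unique ⟨b, (cyc_rel n0 (y g b)).1 (e ▸ y g' b')⟩ ⟨b', by simp⟩
  · obtain ⟨g, e⟩ := cyc_surj n0 (h1 i b).2
    obtain ⟨g', ⟨b', e'⟩, -⟩ := t.2 g ((cyc_one h.pos).1 ((cyc_congr h.pos
      (cyc_dvd n0 (dvd_mul_right n p) e)).2 (h1 i b).1))
    exact ⟨g', b', h2 _ (a _ _) _ b ((cyc_congr n0 ((cyc_rel n0 (y g' b')).2 e')).1 e)⟩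
  · obtain ⟨G, g1, g2, g3⟩ := h4 _ (a g b)
    rw [det R ξ N c d _ A (h.up p0 Cg.rfl) G _ g _ (y g b)
      ((Int.natCast_dvd_natCast.2 h.nd).trans (by simpa using g1 1 0)) g2 g3,
      R.one (h.up p0 Cg.rfl) ((Int.natCast_dvd_natCast.2 h.md).trans (h1 _ (a g b)).1)]

end Vale.Agent.P014U.Ol
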