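import Vale.Agent.P014T.Uy.Lv
import Vale.Agent.P014T.Nr.Grp
import Vale.Agent.P014U.Ol.St
import Vale.Agent.P004Z.Ar.Plc

/-! # P014U, odd levels: level fields -/

set_option autoImplicit false
set_option linter.all false

open CongruenceSubgroup
open scoped MatrixGroups Classical IntermediateField

noncomputable section

namespace Vale.Agent.P014U.Ol

open Vale.Agent.P014T Uy

open Vale.Agent.P022 H231.L3 P027M.M Dc P019P P025H492 Nr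
open Ts hiding Lev io
open P027M.K (SL res0 res0_spec res0_eq)
open Dr (Hm Ha)
open H218.L3 P022K.F0.Cf
open P004Z.Ar.Fn (ev_sub ex_mv)

variable {Γ Γ' : Subgroup SL(2, ℤ)} {H H' : Subgroup Au} {x : FF} {θ : SL Qb Om} {s : Au}
  (X : Mdl)

open Matrix UpperHalfPlane in
/-- admissible levels act freely -/
theorem Lev.tf (l : Lev Γ) {γ : SL(2, ℤ)} (m : γ ∈ Γ) (τ : ℍ) (e : γ • τ = τ) : γ = 1 := by
  obtain ⟨n, h, k⟩ := l.hi
  have m := k m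
  have d := γ.det_coe
  rw [det_fin_two] at d
  have e1 := congrArg ((↑) : ℍ → ℂ) e
  rw [coe_specialLinearGroup_apply, div_eq_iff (by
    simpa [denom] using denom_ne_zero (γ : GL (Fin 2) ℝ) τ)] at e1
  have r := congrArg Complex.re e1
  have i := congrArg Complex.im e1
  have y := τ.im_pos
  simp at r i
  have i' : (γ 0 0 : ℝ) - γ 1 1 = 2 * γ 1 0 * τ.re := mul_right_cancel₀ y.ne' (by linarith)
  have d' : (γ 0 0 : ℝ) * γ 1 1 - γ 0 1 * γ 1 0 = 1 := by exact_mod_cast d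
  have t : ((γ 0 0 : ℝ) + γ 1 1) ^ 2 - 4 = -4 * (γ 1 0 * τ.im) ^ 2 := by
    linear_combination 4 * d' + 4 * γ 1 0 * r + (γ 0 0 - γ 1 1 - 2 * γ 1 0 * τ.re) * i'
  have t' : (γ 0 0 + γ 1 1) ^ 2 ≤ 4 := by
    exact_mod_cast (by nlinarith [sq_nonneg (γ 1 0 * τ.im)] : ((γ 0 0 : ℝ) + γ 1 1) ^ 2 ≤ 4)
  obtain ⟨⟨a, e1⟩, ⟨b, e2⟩⟩ := Fin.forall_fin_two.1 (mem_Ga.1 m 0)
  obtain ⟨⟨c, e3⟩, ⟨f, e4⟩⟩ := Fin.forall_fin_two.1 (mem_Ga.1 m 1)
  simp at e1 e2 e3 e4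
  have k : γ 0 0 + γ 1 1 = 2 - n ^ 2 * (a * f - b * c) := by
    linear_combination (1 - γ 1 1) * e1 - n * a * e4 + d + γ 1 0 * e2 + n * b * e3
  have n9 : (9 : ℤ) ≤ n ^ 2 := by nlinarith [(by exact_mod_cast h : (3 : ℤ) ≤ n)]
  have k0 : a * f - b * c = 0 := by
    rcases lt_trichotomy (a * f - b * c) 0 with l | l | l
    · have : 11 ≤ γ 0 0 + γ 1 1 := by nlinarith
      nlinarith
    · exact l
    · have : γ 0 0 + γ 1 1 ≤ -7 := by nlinarith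
      nlinarith
  rw [k0, mul_zero, _root_.sub_zero] at k
  have k' : (γ 0 0 : ℝ) + γ 1 1 = 2 := by exact_mod_cast k
  have c0 : (γ 1 0 : ℝ) = 0 := by
    rw [k'] at t
    exact (mul_eq_zero.1 (pow_eq_zero_iff two_ne_zero |>.1 (by linarith))).resolve_right y.ne'
  rw [c0] at r i'
  ext i j
  fin_cases i <;> fin_cases j
  · exact_mod_cast (by linarith : (γ 0 0 : ℝ) = 1)
  · exact_mod_cast (by linear_combination r - τ.re * i' : (γ 0 1 : ℝ) = 0)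
  · exact_mod_cast c0
  · exact_mod_cast (by linarith : (γ 1 1 : ℝ) = 1)

theorem Lev.fi (h : Lev Γ) : Γ.FiniteIndex := let ⟨_, n, l⟩ := h.lo; fi_gamma n l

theorem fix_pt (h : ∀ x ∈ L Γ, θ.1 (iO x) = iO x) (l : Lev Γ) (x : FF) :
    ∃ γ ∈ Γ, θ.1 (iO x) = iO (X.pg γ x) := by
  obtain ⟨n, hn, k⟩ := l.lo
  obtain ⟨N, hN, m⟩ := ex_gamma x
  exact (fix_lev X (Nat.mul_pos hn hN) (gamma_le.trans k) h).imp fun γ e =>
    ⟨e.1, e.2 x (L_mono (mul_comm N n ▸ gamma_le) m)⟩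

theorem faith (l : Lev Γ) (l' : Lev Γ') (le : Γ' ≤ Γ) {γ : SL(2, ℤ)} (m : γ ∈ Γ)
    (h : ∀ x ∈ L Γ', X.pg γ x = x) : γ ∈ Γ' := by
  obtain ⟨n, hn, k⟩ := l'.lo
  refine (fix_mem X (N := n * 4) ⟨by omega, dvd_mul_left _ _⟩ (gamma_le.trans k) h).resolve_right
    fun e => ?_
  have := l.tf (mul_mem (le e) (inv_mem m)) UpperHalfPlane.I (by
    rw [neg_mul, mul_inv_cancel, ModularGroup.SL_neg_smul, one_smul])
  rw [neg_mul, mul_inv_cancel] at this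
  simpa using congrArg (fun g : SL(2, ℤ) => g 0 0) this

/-- **transversals** -/
theorem tn_of {I : Type} {r : I → SL(2, ℤ)} {s : I → SL Qb Om} {H H' : Subgroup (SL Qb Om)}
    (hH : ∀ θ, θ ∈ H ↔ ∀ z ∈ LO Γ, θ.1 z = z) (hH' : ∀ θ, θ ∈ H' ↔ ∀ z ∈ LO Γ', θ.1 z = z)
    (le : Γ' ≤ Γ) (l : Lev Γ) (l' : Lev Γ') (R : Dp.Reps Γ Γ' r) (u : ∀ i, Up (s i) (pS X (r i))) :
    Tn H H' s := by
  simp only [LO_all] at hH hH'
  have i : ∀ i x, (s i)⁻¹.1 (iO x) = iO (X.pg (r i)⁻¹ x) := fun i x => (s i).1.injective (by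
    rw [sl_inv, u]
    exact congrArg iO (pg_inv' X _ x).symm)
  refine ⟨fun θ m => (hH θ).2 fun x k => (hH' θ).1 m x (L_mono le k), fun i => (hH _).2 fun x k =>
    (u i x).trans (congrArg iO (Dp.pg_self X k (R.mem i))), fun θ m => ?_, fun p q m => ?_⟩
  · obtain ⟨n, hn, k⟩ := l'.lo
    obtain ⟨γ, g, e⟩ := fix_lev X hn (k.trans le) ((hH θ).1 m)
    exact (R.cov γ g).imp fun p c => (hH' _).2 fun x b => by
      rw [sl_mul, e x (L_mono k b), i, ← Dp.pg_mul, Dp.pg_self X b c]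
  · refine (R.inj q p (faith X l l' le (mul_mem (R.mem q) (inv_mem (R.mem p))) fun x b =>
      iO_inj ?_)).symm
    rw [Dp.pg_mul, ← i]
    exact (congrArg _ (u q x).symm).trans ((hH' _).1 m x b)

theorem tn_fi {I : Type} {r : I → SL(2, ℤ)} {t : I → SL Qb Om} (le : Γ' ≤ Γ) (l : Lev Γ)
    (l' : Lev Γ') (R : Dp.Reps Γ Γ' r) (u : ∀ i, Up (t i) (pS X (r i))) :
    Tn (Fi (LO Γ)) (Fi (LO Γ')) t := tn_of X (fun _ => Iff.rfl) (fun _ => Iff.rfl) le l l' R u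

/-- normal levels are stable -/
theorem stb_nor (n : ∀ γ ∈ Γ, ∀ δ ∈ Γ', γ * δ * γ⁻¹ ∈ Γ') (l : Lev Γ) (h : H ≤ Sb Γ') :
    Stb (LO Γ') (HO Γ H) := by
  rintro θ ⟨s, m, p, e⟩ _ ⟨f, k, rfl⟩
  obtain ⟨X⟩ := mdl
  obtain ⟨γ, g, d⟩ := fix_pt X (θ := θ * (up s)⁻¹) (fun y c => by
    rw [sl_mul, (up_spec s).inv, e _ ((inv_mem p y).2 c), sl_inv]) l (s.1 f)
  rw [sl_mul, (up_spec s).inv, sl_inv'] at d
  exact mem_cm.2 (d ▸ iO_mem.2 (Dp.pb_mem X _ (Dp.cj_SL (n γ g)) ((h m f).2 k)))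

theorem stb_gamma {N : ℕ} (l : Lev Γ) (h : H ≤ Sb (Gamma N)) : Stb (LO (Gamma N)) (HO Γ H) :=
  stb_nor (fun γ _ => gamma_conj N γ) l h

/-- two points with the same place -/
theorem same {l : ℕ} [CFF Qb (L (Gamma l))] {Q : Plk Qb (L (Gamma l))} {τ τ' : UpperHalfPlane}
    (hl : Lv l) (h : Uy.Pt (L _).val τ Q) (h' : Uy.Pt (L _).val τ' Q) : ∃ γ ∈ Gamma l, γ • τ = τ' := by
  obtain ⟨X⟩ := mdl
  have g : Gamma l ≤ G0 := (grp l hl).2.2.2.2.2.1.trans (grp l hl).2.2.1.hi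
  obtain ⟨P, hP, e, d, -⟩ := X.hol
  obtain ⟨a, k⟩ := exists_cst Q ((h (X.tL g)).2 ((lp_t X).1 τ))
  have n := k.resolve_left fun e => X.t_ne a (congrArg Subtype.val e)
  have w : ∀ τ, Uy.Pt (L _).val τ Q → P τ = io a := fun τ h => by
    have o := h.pos.1 n
    have r := (h _).1 (sub_mem ((h (X.tL g)).2 ((lp_t X).1 τ)) (Q.2.1 a))
    have := (ev_eq_zero (fun z => by rw [z, od_zero] at o; exact lt_irrefl _ o) r).2 o
    rw [map_sub, map_sub, AlgHom.commutes, cv_alg] at this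
    have := (ev_sub ((lp_t X).1 τ) (reg_const τ _)).symm.trans this
    rw [ev_const, sub_eq_zero] at this
    exact (ev_jm τ ⟨P, hP⟩).symm.trans (e ▸ this :)
  obtain ⟨γ, rfl, m⟩ := ex_mv (P := ⟨P, hP⟩) (d τ') ((X.baseC.trans (by rw [e]; rfl)).le
    (MF_mono le_top jM_mem)) ((w τ h).trans (w τ' h').symm)
  have m := t_fix X (γ := γ) (cv_inj (by rw [Hec.cv_pg, e]; exact m))
  have := cff G0 inferInstance
  let _ := algL g
  have := towerL g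
  obtain ⟨f1, f2⟩ := artin X G0 _ g (fi_gamma hl.pos le_rfl)
  obtain ⟨f3, -, f4⟩ := f2 fun a _ => gamma_conj l a
  obtain ⟨σ, hσ⟩ := f4 γ m
  have e3 : σ⁻¹ ∈ inertia (L G0) Q := Subtype.ext (SetLike.ext fun z => by
    show σ z ∈ Q.1 ↔ z ∈ Q.1
    rw [h, h']
    exact (by rw [← P004Z.Ar.Fn.reg_act, ← Hec.cv_pg X]; exact hσ z ▸ Iff.rfl))
  rw [(ram_eq_one_iff Q).1 (unr X (SL_pos 1) (e := (L _).val) (j := jL _) rfl ((h _).2 (hl_j τ))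
    (t := X.tL le_rfl) (Hec.pg_one X _).symm), Subgroup.mem_bot, inv_eq_one] at e3
  subst e3
  exact (mem_Gt.1 (fix_Gt X hl fun x hx => (hσ ⟨x, hx⟩).symm)).elim (fun k => ⟨γ, k, rfl⟩)
    fun k => ⟨-γ, k, ModularGroup.SL_neg_smul γ τ⟩

/-- **the covering of levels is admissible** -/
theorem adm_LO (h : Lev Γ) {N : ℕ} (hN : Lv N) (l : Gamma N ≤ Γ) {K : Subgroup (SL Qb Om)}
    (st : Stb (LO (Gamma N)) K) : Adm jO (LO Γ) K (LO (Gamma N)) := by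
  have fi := fi_gamma hN.pos le_rfl
  have := cffO fi
  have := cff _ fi
  refine ⟨fg_of_cff, LO_mono l, st, fun ν m n r P y e => ?_⟩
  obtain ⟨X⟩ := mdl
  obtain ⟨γ, g, d⟩ := fix_lev X hN.pos l (LO_all.1 m)
  let φ : L (Gamma N) ≃ₐ[Qb] LO (Gamma N) := (L (Gamma N)).equivMap iO
  let Q : Plk Qb (L (Gamma N)) := ⟨P.1.comap (φ : L (Gamma N) →+* LO (Gamma N)), fun a => by
    change φ _ ∈ P.1
    rw [φ.commutes]
    exact P.2.1 a, fun t => P.2.2 (eq_top_iff.2 fun z _ => by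
      simpa using (SetLike.ext_iff.1 t (φ.symm z)).2 trivial)⟩
  obtain ⟨τ, q⟩ := ex_pt (P := Q) (e := (L _).val) (j := jL _) rfl (y _ rfl)
  obtain ⟨δ, k, s⟩ := same hN q (τ' := γ • τ) fun z => by
    have c := Dp.pb_mem X (SL_pos γ) (Dp.cj_SL (gamma_conj N γ)) z.2
    have : n.1 (φ z) = φ ⟨_, c⟩ := Subtype.ext ((r _).trans (d z z.2))
    refine Iff.trans ?_ ((q ⟨_, c⟩).trans (by rw [← P004Z.Ar.Fn.reg_act, ← Hec.cv_pg X]; rfl))
    change φ z ∈ P.1 ↔ φ _ ∈ P.1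
    rw [← this, ← sm_mem n P, e]
  rw [inv_mul_eq_one.1 (h.tf (mul_mem (inv_mem (l k)) g) τ (by rw [mul_smul, ← s, inv_smul_smul]))] at k
  exact LO_all.2 fun x c => by rw [d x c, Dp.pg_self X c k]

end Vale.Agent.P014U.Ol
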