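import Vale.Agent.P014T.Nr.Ins
import Vale.Agent.P014U.Ol.Zf
import Vale.Agent.P014U.Ol.Rul

/-! # P014U, odd levels: the classes obey the rules -/

set_option autoImplicit false
set_option linter.all false

open CongruenceSubgroup Matrix
open scoped MatrixGroups Classical

noncomputable section

namespace Vale.Agent.P014U.Ol

open Vale.Agent.P014T Nr

open Vale.Agent.P022 H231.L3 P027M.M
open Ts (Pm Ep)
open Dr
open Uy (Ud gE gE_ea ud_un)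
open ModularGroup (S)
open Sg (sF)

variable (X : Mdl) {a b : ℚ} (hD : 4 * a ^ 3 + 27 * b ^ 2 ≠ 0) (m : ℕ) (ζ : Qbˣ) {R : Type}
  [CommRing R] (ρ : GQ →* P004F.M2 R) (e : (Fin 2 → R) →+ Ep Qb a b)

/-- **the class of the symbol of `u` and `v`, pushed along `ξ`** -/
def ZZ (Γ : Subgroup SL(2, ℤ)) (ξ : Pm FF a b) (u v : FF) : Cl ρ :=
  if h : ∃ y, Zf X hD Γ Ha ξ m ζ u v (e ∘ y) then cl ρ h.choose else 0

variable {X hD m ζ ρ e} {Γ Γ' : Subgroup SL(2, ℤ)} {D : Subgroup GQ} {ξ : Pm FF a b} {u v : FF}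
  {y : GQ → Fin 2 → R} {z : GQ → Ep Qb a b}

variable (C : Crd m ρ e)
include C

theorem ZZ_eq (Z : Zf X hD Γ Ha ξ m ζ u v z) (k : ∀ g ∈ Ha, e (y g) = z g) :
    ZZ X hD m ζ ρ e Γ ξ u v = cl ρ y := by
  have h : ∃ y, Zf X hD Γ Ha ξ m ζ u v (e ∘ y) := ⟨y, Z.congr k⟩
  rw [ZZ, dif_pos h, cl_eq]
  obtain ⟨q, t, r⟩ := h.choose_spec.uniq Z
  obtain ⟨w, rfl⟩ := C.ex q t
  refine ⟨w, fun g n => C.inj ?_⟩
  rw [map_sub, map_sub, C.ge, k g n]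
  exact sub_eq_iff_eq_add'.2 (r g n)

theorem ex_y (Z : Zf X hD Γ D ξ m ζ u v z) : ∃ y, Zf X hD Γ D ξ m ζ u v (e ∘ y) := by
  choose! w hw using C.ex
  exact ⟨fun g => w (z g), Z.congr fun g n => hw _ (Z.tor n)⟩

theorem co (Z : Zf X hD Γ D ξ m ζ u v (e ∘ y)) : Co D ρ y :=
  ⟨fun g n h n' => C.inj (by rw [map_add, C.ge]; exact Z.coc n n'), Z.lc.imp fun _ k =>
    ⟨k.1, fun g p q => C.inj ((k.2 g p q).trans (map_zero e).symm)⟩⟩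

/-- the class extends to the group which fixes the data -/
theorem ext (B : Bd X hD Γ D ξ m ζ) (U : Ud X Γ D u) (V : Ud X Γ D v) (le : Ha ≤ D) :
    ∃ y, Co D ρ y ∧ cl ρ y = ZZ X hD m ζ ρ e Γ ξ u v ∧ Zf X hD Γ D ξ m ζ u v (e ∘ y) :=
  let ⟨_, Z⟩ := B.ex U V
  let ⟨y, Z⟩ := ex_y C Z
  ⟨y, co C Z, (ZZ_eq C (Z.mono le) fun _ _ => rfl).symm, Z⟩

variable (m0 : m ≠ 0) (pr : IsPrimitiveRoot ζ m) (dv : ∀ P : Ep Qb a b, ∃ q, m • q = P)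
include m0 pr dv

theorem Ok.ex (o : Ok X (Uy.Cu hD) Γ ξ u v) :
    ∃ y, ZZ X hD m ζ ρ e Γ ξ u v = cl ρ y ∧ Zf X hD Γ Ha ξ m ζ u v (e ∘ y) :=
  let ⟨y, _, k, Z⟩ := ext C (bd_xi o.lev o.xi m0 pr dv) (ud_un.1 o.u1) (ud_un.1 o.u2) le_rfl
  ⟨y, k.symm, Z⟩

/-- **the rules hold** -/
theorem ru : Ru X m (Uy.Cu hD) (sg ρ) (ZZ X hD m ζ ρ e) where
  cu _ _ _ h := Uy.cu_pA X h _
  tor _ _ _ _ _ := C.tz _
  ml Γ ξ u u' v o U := by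
    obtain ⟨y, k, Z⟩ := o.ex C m0 pr dv
    obtain ⟨y', k', Z'⟩ := Ok.ex C m0 pr dv ⟨o.lev, o.xi, U, o.u2⟩
    rw [k, k', ← map_add]
    exact ZZ_eq C (Z.ml Z') fun _ _ => map_add e _ _
  skew Γ ξ u v o := by
    obtain ⟨y, k, Z⟩ := o.ex C m0 pr dv
    rw [k, ← map_neg]
    exact ZZ_eq C Z.skew fun _ _ => map_neg e _
  add Γ ξ ξ' u v o x := by
    obtain ⟨y, k, Z⟩ := o.ex C m0 pr dv
    obtain ⟨y', k', Z'⟩ := Ok.ex C m0 pr dv ⟨o.lev, x, o.u1, o.u2⟩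
    rw [k, k', ← map_add]
    exact ZZ_eq C (Z.add Z') fun _ _ => map_add e _ _
  res Γ Γ' ξ u v ι _ r le t l U V o := by
    obtain ⟨y, k, Z⟩ := Ok.ex C m0 pr dv ⟨l, o.xi.tr t fun _ => Uy.cu_pA X o.xi.cu _, U, V⟩
    rw [k]
    exact ZZ_eq C (Z.res (bd_xi o.lev o.xi m0 pr dv) le t) fun _ _ => rfl
  nrm Γ Γ' ξ u v ι _ r le t l x U o := by
    obtain ⟨y, k, Z⟩ := o.ex C m0 pr dv
    rw [k]
    exact (ZZ_eq C (Z.nrm (bd_xi l x m0 pr dv) (ud_un.1 U) le t) fun _ _ => rfl).symm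
  conj Γ Γ' ξ u v A hA c c' _ o l := by
    obtain ⟨y, k, Z⟩ := o.ex C m0 pr dv
    rw [k]
    exact ZZ_eq C (Z.conj hA c c' (fun g n f _ => Uy.gal_pb_ha X hA n f) l) fun _ _ => rfl
  gal Γ Γ' ξ u v g k c hL o o' := by
    obtain ⟨y, h, Z⟩ := o.ex C m0 pr dv
    rw [h, sg_cl, ← map_zsmul]
    exact ZZ_eq C (Z.gal o'.lev c hL fun h n => Ha_normal.conj_mem' h n g) fun h _ => by
      rw [Pi.smul_apply, map_zsmul, Dr.cj, C.ge]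
      rfl

variable {N c d n k : ℕ} {A : M2}

/-- **the element of level `n` is defined over the `n`-th cyclotomic field** -/
theorem ext0 (h : Cx X m (Uy.Cu hD) ξ N c d n A) :
    ∃ y, Co (Hm n) ρ y ∧ cl ρ y = ZL (ZZ X hD m ζ ρ e) ξ c d n A ∧
      Zf X hD (Gamma n) (Hm n) ξ m ζ (sF c (vL n (A 0))) (sF d (vL n (A 1))) (e ∘ y) := by
  have o := h.ok
  have f : ∀ {c w}, c ^ 2 % 24 = 1 → Sg.Nz c (vL n w) → ∀ g ∈ Hm n, X.gal g (gs c n w) = gs c n w :=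
    fun hc z g p => by
      rw [gs_gal X hc h.pos z ((cyc_one h.pos).2 p)]
      exact gs_cv hc h.pos (Fin.forall_fin_two.2 (by simp))
  exact ext C ⟨o.lev, Uy.hm_Sb X h.pos le_rfl, h.cu, (Uy.df_iff X).2 o.xi.inv, fun g _ => h.fix g,
    m0, pr, Hm_le h.md, dv⟩ { ud_un.1 o.u1 with fx := f h.hc h.n0 }
    { ud_un.1 o.u2 with fx := f h.hd h.n1 } (Ha_le h.pos.ne')

/-- **a smaller field of definition** -/
theorem ext1 (h : Cx X m (Uy.Cu hD) ξ N c d (n * k) A) (md : m ∣ n) (kd : ∀ i, (k : ℤ) ∣ A i 0) :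
    ∃ y, Co (Hm n) ρ y ∧ cl ρ y = ZL (ZZ X hD m ζ ρ e) ξ c d (n * k) A := by
  have o := h.ok
  have r := ru (X := X) (hD := hD) C m0 pr dv
  have j : ∀ δ, S * δ * S⁻¹ ∈ Gamma (n * k) ↔ δ ∈ Gamma (n * k) := fun δ => by
    rw [(Gamma_normal _).mem_comm_iff, inv_mul_cancel_left]
  have l := Dp.cj_SL fun δ => (j δ).2
  have x := xi_pb r o.xi (SL_pos S) l fun _ => comm_S X S
  obtain ⟨y, p, q, -⟩ := ext C (D := Hm n) ⟨o.lev, by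
    rintro _ ⟨g, -, rfl⟩
    exact Uy.gal_Sb X h.pos g, x.cu, (Uy.df_iff X).2 x.inv, fun g _ => gal_S X
      (Nat.pos_of_dvd_of_pos h.nd h.pos) h.inv (h.fix g), m0, pr, Hm_le md, dv⟩
    { ud_un.1 (o.u1.pb (SL_pos S) l fun _ => comm_S X S) with
      fx := fun _ => gs_S X h.hc h.pos h.n0 (kd 0) }
    { ud_un.1 (o.u2.pb (SL_pos S) l fun _ => comm_S X S) with
      fx := fun _ => gs_S X h.hd h.pos h.n1 (kd 1) } (Ha_le (left_ne_zero_of_mul h.pos.ne'))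
  exact ⟨y, p, q.trans (r.cjS S j o o.lev)⟩

end Vale.Agent.P014U.Ol
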