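import Vale.Agent.P014U.Ol.Hec

/-! # P014U, levels at least three: the norm relation at a new prime (helper48) -/

set_option autoImplicit false
set_option linter.all false

open CongruenceSubgroup Finset
open scoped MatrixGroups Matrix

noncomputable section

namespace Vale.Agent.P014U.Ol

open Vale.Agent.P014T Vale.Agent.P014T.Nr

open Vale.Agent.P022 H231.L3 P027M.M P027M.M.Dp
open Vale.Agent.P014T.Dr (Hm Ha Tv Ha_le Hm_le)
open Sg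

variable {n l : ℕ} [hl : Fact l.Prime] {w : Fin 2 → ℤ} {e e' : Fin 2 → ZMod l}

theorem cvW1 (n0 : 0 < n) (hw : ∀ i, (w i : ZMod l) = 0) {γ : SL(2, ℤ)} (h : γ ∈ Gamma n) :
    Cv (n * l : ℕ) (Wv n w e ᵥ* γ) (Wv n w e') ↔ ∀ j, e' j = e 0 * γ 0 j + e 1 * γ 1 j := by
  obtain ⟨B, k⟩ := ex_B h
  simp only [cvW n0 k, hw, zero_mul, add_zero]

theorem detl (γ : SL(2, ℤ)) : (γ 0 0 * γ 1 1 - γ 0 1 * γ 1 0 : ZMod l) = 1 := by
  exact_mod_cast congrArg (Int.cast : ℤ → ZMod l) (det' γ)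

/-- `Γ(n) ∩ Γ₁(l)` -/
def V1 (n l : ℕ) : Subgroup SL(2, ℤ) := Gamma n ⊓ Gamma1 l

theorem mem_V1 {γ : SL(2, ℤ)} :
    γ ∈ V1 n l ↔ γ ∈ Gamma n ∧ (γ 1 0 : ZMod l) = 0 ∧ (γ 1 1 : ZMod l) = 1 :=
  and_congr_right fun _ => (Gamma1_mem _ _).trans ⟨fun h => ⟨h.2.2, h.2.1⟩, fun h =>
    ⟨by simpa [h.1, h.2] using detl (l := l) γ, h.2, h.1⟩⟩

theorem V1_le : V1 n l ≤ Gamma n ⊓ Gamma0 l := fun _ m =>
  ⟨(mem_V1.1 m).1, Gamma0_mem.2 (mem_V1.1 m).2.1⟩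

theorem Ga_V1 : Gamma (n * l) ≤ V1 n l := fun _ m =>
  have := Gamma_mem.1 (Ga_le (dvd_mul_left l n) m)
  mem_V1.2 ⟨Ga_le (dvd_mul_right _ _) m, this.2.2⟩

theorem ex_row (n0 : 0 < n) (ln : ¬ l ∣ n) (a b c d : ZMod l) (h : a * d - b * c = 1) :
    ∃ γ ∈ Gamma n, ((γ 0 0 : ZMod l) = a ∧ (γ 0 1 : ZMod l) = b) ∧ (γ 1 0 : ZMod l) = c ∧
      (γ 1 1 : ZMod l) = d := by
  obtain ⟨γ, m, k⟩ := lift_cop n0 hl.out.pos (cop hl.out ln)
    (G := !![(a.val : ℤ), b.val; c.val, d.val])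
    ((ZMod.intCast_zmod_eq_zero_iff_dvd _ _).1 (by simp [h]))
  exact ⟨γ, m, ⟨by simpa using cast_eq (k 0 0), by simpa using cast_eq (k 0 1)⟩,
    by simpa using cast_eq (k 1 0), by simpa using cast_eq (k 1 1)⟩

variable (n0 : 0 < n) (hw : ∀ i, (w i : ZMod l) = 0)
include n0 hw

theorem V1_eq {Γ : Subgroup SL(2, ℤ)} (a : V1 n l ≤ Γ) (b : Γ ≤ Gamma n) :
    V1 n l = Γ ⊓ St (n * l : ℕ) (Wv n w (![0, 1] : Fin 2 → ZMod l)) := by
  ext γ
  refine ⟨fun m => ⟨a m, (cvW1 n0 hw (b (a m))).2 (by simp [Fin.forall_fin_two, mem_V1.1 m])⟩,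
    fun m => mem_V1.2 ⟨b m.1, ?_⟩⟩
  simpa [Fin.forall_fin_two, eq_comm] using (cvW1 n0 hw (b m.1)).1 m.2

theorem Ga_eq1 (ln : ¬ l ∣ n) {κ : ZMod l} (k : κ ≠ 0) :
    Gamma (n * l) = V1 n l ⊓ St (n * l : ℕ) (Wv n w ![κ, 0]) := by
  refine le_antisymm (le_inf Ga_V1 (Ga_St _)) fun γ m => mem_Ga.2 fun i j => ?_
  obtain ⟨a, b, c⟩ := mem_V1.1 m.1
  have := (cvW1 n0 hw a).1 m.2
  rw [Nat.cast_mul]
  refine (cop hl.out ln).symm.mul_dvd (mem_Ga.1 a i j) ?_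
  rw [← ZMod.intCast_zmod_eq_zero_iff_dvd]
  revert i j
  simpa [Fin.forall_fin_two, k, b, c, sub_eq_zero, eq_comm (a := κ)] using this

end Vale.Agent.P014U.Ol

namespace Vale.Agent.P014U.Ol

open Vale.Agent.P014T Vale.Agent.P014T.Nr

open Vale.Agent.P022 H231.L3 P027M.M P027M.M.Dp
open Vale.Agent.P014T.Dr (Hm Ha Tv Ha_le Hm_le)
open Sg

variable {n l : ℕ} [hl : Fact l.Prime] {w : Fin 2 → ℤ}
  {X : Mdl} {Ξ C : Type} [AddCommGroup Ξ] [DistribMulAction Au Ξ] [AddCommGroup C] {m : ℕ}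
  {Cu : AddSubgroup Ξ} {σ : GQ →* AddMonoid.End C} {Z : Subgroup SL(2, ℤ) → Ξ → FF → FF → C}
  {ξ : Ξ} {N c d k : ℕ} {A : M2} {u : FF} (R : Ru X m Cu σ Z) (h : Cx X m Cu ξ N c d n A)
  (ln : ¬ l ∣ n)

section orb

variable (hk : k ^ 2 % 24 = 1) (hw : ∀ i, (w i : ZMod l) = 0) (z : Nz k (vL n w))
include h

theorem lev_V1 : Lev (V1 n l) := h.ok.lev.mono inf_le_left (Nat.mul_pos h.pos hl.out.pos) Ga_V1

include hk hw z

theorem un01 : Un X (V1 n l) (gs k (n * l) (Wv n w (![0, 1] : Fin 2 → ZMod l))) :=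
  gs_un X hk (Nat.mul_pos h.pos hl.out.pos) (Nz.up h.pos hl.out.pos z Wv_cv)
    ((V1_eq h.pos hw inf_le_left le_rfl).le.trans inf_le_right)

include R ln

theorem o1 (hu : Un X (Gamma n) u) :
    Un X (Gamma n) (∏ e ∈ univ.erase (0 : Fin 2 → ZMod l), gs k (n * l) (Wv n w e)) ∧
    Z (V1 n l) ξ u (gs k (n * l) (Wv n w (![0, 1] : Fin 2 → ZMod l))) =
      Z (Gamma n) ξ u (∏ e ∈ univ.erase (0 : Fin 2 → ZMod l), gs k (n * l) (Wv n w e)) := by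
  rw [V1_eq h.pos hw inf_le_left le_rfl]
  refine R.orb2 hk (Nat.mul_pos h.pos hl.out.pos) h.ok.lev (Ga_le (dvd_mul_right _ _)) h.xi hu
    (Nz.up h.pos hl.out.pos z Wv_cv) _ (Wv_inj h.pos) (fun e a => ?_) fun γ a => ?_
  · obtain ⟨x, y, b⟩ : ∃ x y, x * e 1 - y * e 0 = 1 := by
      by_cases b : e 1 = 0
      · have : e 0 ≠ 0 := fun c => (mem_erase.1 a).1 (funext (Fin.forall_fin_two.2 ⟨c, b⟩))
        exact ⟨0, -(e 0)⁻¹, by simp [this]⟩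
      · exact ⟨(e 1)⁻¹, 0, by simp [b]⟩
    obtain ⟨γ, m, -, c, d⟩ := ex_row h.pos ln _ _ _ _ b
    exact ⟨γ, m, (cvW1 h.pos hw m).2 (by simp [Fin.forall_fin_two, c, d])⟩
  · refine ⟨fun j => γ 1 j, mem_erase.2 ⟨fun c => ?_, mem_univ _⟩, (cvW1 h.pos hw a).2 (by simp)⟩
    simpa [show (γ 1 0 : ZMod l) = 0 from congrFun c 0, show (γ 1 1 : ZMod l) = 0 from congrFun c 1]
      using detl (l := l) γ

theorem o2 (hu : Un X (Gamma n ⊓ Gamma0 l) u) :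
    Un X (Gamma n ⊓ Gamma0 l) (∏ j ∈ univ.erase (0 : ZMod l), gs k (n * l) (Wv n w ![0, j])) ∧
    Z (V1 n l) ξ u (gs k (n * l) (Wv n w (![0, 1] : Fin 2 → ZMod l))) =
      Z (Gamma n ⊓ Gamma0 l) ξ u (∏ j ∈ univ.erase (0 : ZMod l), gs k (n * l) (Wv n w ![0, j])) := by
  rw [V1_eq h.pos hw V1_le inf_le_left]
  refine R.orb2 hk (Nat.mul_pos h.pos hl.out.pos) (lev_G0 h) (Ga_V1.trans V1_le)
    (h.xi.mono inf_le_left) hu (Nz.up h.pos hl.out.pos z Wv_cv) _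
    (fun i j a => congrFun (Wv_inj h.pos _ _ a) 1) (fun j a => ?_) fun γ a => ?_
  · obtain ⟨γ, m, -, c, d⟩ := ex_row h.pos ln j⁻¹ 0 0 j (by simp [(mem_erase.1 a).1])
    exact ⟨γ, ⟨m, Gamma0_mem.2 c⟩, (cvW1 h.pos hw m).2 (by simp [Fin.forall_fin_two, c, d])⟩
  · have b := Gamma0_mem.1 a.2
    exact ⟨γ 1 1, mem_erase.2 ⟨fun c => by simpa [b, c] using detl (l := l) γ, mem_univ _⟩,
      (cvW1 h.pos hw a.1).2 (by simp [Fin.forall_fin_two, b])⟩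

theorem o3 (hu : Un X (V1 n l) u) {κ : ZMod l} (k0 : κ ≠ 0) :
    Un X (V1 n l) (∏ j, gs k (n * l) (Wv n w ![κ, j])) ∧
    Z (Gamma (n * l)) ξ (gs k (n * l) (Wv n w ![κ, 0])) u =
      Z (V1 n l) ξ (∏ j, gs k (n * l) (Wv n w ![κ, j])) u := by
  rw [Ga_eq1 h.pos hw ln k0]
  refine R.orb1 hk (Nat.mul_pos h.pos hl.out.pos) (lev_V1 h) Ga_V1
    (h.xi.mono inf_le_left) hu (Nz.up h.pos hl.out.pos z Wv_cv) _
    (fun i j a => congrFun (Wv_inj h.pos _ _ a) 1) (fun j a => ?_) fun γ a => ?_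
  · obtain ⟨γ, m, ⟨a, b⟩, c, d⟩ := ex_row h.pos ln 1 (j / κ) 0 1 (by simp)
    exact ⟨γ, mem_V1.2 ⟨m, c, d⟩, (cvW1 h.pos hw m).2 (by
      simp [Fin.forall_fin_two, a, b, mul_div_cancel₀ _ k0])⟩
  · exact ⟨κ * γ 0 1, mem_univ _, (cvW1 h.pos hw a.1).2 (by
      simp [Fin.forall_fin_two, ((Gamma1_mem _ _).1 a.2).1])⟩

end orb

/-- the units which belong to one row -/
structure Rw (X : Mdl) (n l k : ℕ) [Fact l.Prime] (w : Fin 2 → ℤ) (g g1 gy : FF) : Prop where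
  hk : k ^ 2 % 24 = 1
  hw : ∀ i, (w i : ZMod l) = 0
  z : Nz k (vL n w)
  u0 : Un X (Gamma n) g
  u1 : Un X (Gamma n) g1
  uy : Un X (Gamma n) gy
  e0 : ∏ e : Fin 2 → ZMod l, gs k (n * l) (Wv n w e) = g
  e1 : gs k (n * l) (Wv n w (0 : Fin 2 → ZMod l)) = g1
  ey : ∏ j : ZMod l, gs k (n * l) (Wv n w ![0, j]) = X.pb _ (d1_pos (Fact.out : l.Prime).pos) gy

omit R h ln in
theorem rw_of (n0 : 0 < n) (hk : k ^ 2 % 24 = 1) (lk : l.Coprime k) {a : Fin 2 → ℤ} {u t : ℤ}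
    (e : u * l + t * n = 1) (z : Nz k (vL n a)) : Rw X n l k (fun i => l * (u * a i)) (gs k n a)
      (gs k n fun i => u * a i) (gs k n ![u * a 0, a 1]) := by
  have c : Cv n (fun i => l * (u * a i)) a := fun i => ⟨-t * a i, by linear_combination a i * e⟩
  have y : ∀ x : ℤ, (n : ℤ) ∣ k * (u * x) → (n : ℤ) ∣ k * x := fun x b =>
    IsCoprime.dvd_of_dvd_mul_left ⟨t, l, by linear_combination e⟩ (mul_left_comm u k x ▸ b)
  have z' := (nz_iff n0).1 z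
  have zy : Nz k (vL n ![u * a 0, a 1]) :=
    (nz_iff n0).2 fun b => z' (Fin.forall_fin_two.2 ⟨y _ (b 0), b 1⟩)
  have cy : Cv n ![u * a 0, l * (u * a 1)] ![u * a 0, a 1] := Fin.forall_fin_two.2 ⟨by simp, c 1⟩
  refine ⟨hk, fun i => by simp, Nz.cv n0 z c, gs_un X hk n0 z (Ga_St _), gs_un X hk n0
    ((nz_iff n0).2 fun b => z' fun i => y _ (b i)) (Ga_St _), gs_un X hk n0 zy (Ga_St _),
    (gs_dist hk n0 lk (Nz.cv n0 z c)).trans (gs_cv hk n0 c), ?_, ?_⟩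
  · rw [Wv_zero, gs, vL_up hl.out.pos, gs]
  · rw [gs_dist1 X hk n0 lk rfl (Nz.cv n0 zy cy), gs_cv hk n0 cy]

omit R h ln in
theorem Rw.p0 {g g1 gy : FF} (r : Rw X n l k w g g1 gy) :
    g1 * ∏ e ∈ univ.erase (0 : Fin 2 → ZMod l), gs k (n * l) (Wv n w e) = g := by
  rw [← r.e1, ← r.e0]
  exact mul_prod_erase _ (fun e => gs k (n * l) (Wv n w e)) (mem_univ _)

omit R h ln in
theorem Rw.py {g g1 gy : FF} (r : Rw X n l k w g g1 gy) :
    g1 * ∏ j ∈ univ.erase (0 : ZMod l), gs k (n * l) (Wv n w ![0, j]) =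
      X.pb _ (d1_pos hl.out.pos) gy := by
  rw [← r.e1, ← r.ey, show (0 : Fin 2 → ZMod l) = ![0, 0] from
    funext (Fin.forall_fin_two.2 ⟨rfl, rfl⟩)]
  exact mul_prod_erase _ (fun j => gs k (n * l) (Wv n w ![0, j])) (mem_univ _)

include R h ln in
theorem core {w' : Fin 2 → ℤ} {g g1 gy g' g1' gy' : FF} (r : Rw X n l c w g g1 gy)
    (r' : Rw X n l d w' g' g1' gy') {a : ℤ} (hk : Hk X ξ l a) :
    ∑ κ ∈ univ.erase (0 : ZMod l), Z (Gamma (n * l)) ξ (gs c (n * l) (Wv n w ![κ, 0]))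
      (gs d (n * l) (Wv n w' (![0, 1] : Fin 2 → ZMod l))) =
      Z (Gamma n) ξ g g' - a • Z (Gamma n) ξ gy gy' + l • Z (Gamma n) ξ g1 g1' := by
  have L0 := h.ok.lev
  have L1 := lev_V1 (l := l) h
  have L2 := lev_G0 (l := l) h
  have x0 := h.xi
  have x1 : Xi X Cu (V1 n l) ξ := x0.mono inf_le_left
  have x2 : Xi X Cu (Gamma n ⊓ Gamma0 l) ξ := x0.mono inf_le_left
  have G := un01 h r.hk r.hw r.z
  have G' := un01 h r'.hk r'.hw r'.z
  have Y : Un X (Gamma n ⊓ Gamma0 l) (X.pb _ (d1_pos hl.out.pos) gy) := (r.uy.mono inf_le_left).pb _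
    (fun γ => up_Gu (cop hl.out ln)) fun g _ => comm_D X hl.out.pos one_pos _ g
  have v1 : Un X (Gamma n ⊓ Gamma0 l) g1 := r.u1.mono inf_le_left
  have v1' : Un X (Gamma n ⊓ Gamma0 l) g1' := r'.u1.mono inf_le_left
  have a3 := fun κ (k : κ ∈ univ.erase (0 : ZMod l)) => o3 R h ln r.hk r.hw r.z G' (mem_erase.1 k).1
  obtain ⟨P', a1⟩ := o1 R h ln r'.hk r'.hw r'.z r.u0
  obtain ⟨H', a2⟩ := o2 R h ln r'.hk r'.hw r'.z Y
  obtain ⟨P, b1⟩ := o1 R h ln r.hk r.hw r.z r'.u1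
  obtain ⟨H, b2⟩ := o2 R h ln r.hk r.hw r.z v1'
  have c1 := R.ml _ _ _ _ _ ⟨L1, x1, Y.mono V1_le, G'⟩ (un_prod fun κ k => (a3 κ k).1)
  have c2 := R.mr ⟨L0, x0, r.u0, r'.u1⟩ P'
  have c3 := R.mr ⟨L2, x2, Y, v1'⟩ H'
  have c4 := R.mr ⟨L2, x2, v1', v1⟩ H
  have c5 := R.mr ⟨L0, x0, r'.u1, r.u1⟩ P
  rw [← r.ey, mul_prod_erase _ (fun κ => ∏ j, gs c (n * l) (Wv n w ![κ, j])) (mem_univ _),
    ← Fintype.prod_prod_type', show ∏ x : ZMod l × ZMod l, gs c (n * l) (Wv n w ![x.1, x.2]) = g from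
      ((piFinTwoEquiv fun _ => ZMod l).symm.prod_comp fun e => gs c (n * l) (Wv n w e)).trans r.e0,
    r.ey] at c1
  rw [r'.p0] at c2
  rw [r'.py, hecke R h ln r.uy r'.uy hk] at c3
  rw [r.py, index R h ln r'.u1 r.u1, R.skew _ _ _ _ ⟨L2, x2, Y, v1'⟩] at c4
  rw [r.p0, R.skew _ _ _ _ ⟨L0, x0, r.u0, r'.u1⟩] at c5
  rw [R.skew _ _ _ _ ⟨L0, x0, r.u1, r'.u1⟩] at c4 c5
  rw [sum_congr rfl fun κ k => (a3 κ k).2, ← R.prod_l L1 x1 G' fun κ k => (a3 κ k).1]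
  rw [add_smul, one_smul, smul_neg] at c4
  linear_combination (norm := abel) -c1 + a1 - c2 - a2 + c3 - c4 - b1 + b2 + c5

omit hl h ln in
include R in
theorem dl : DL X m Cu σ Z := fun ξ N c d n A h l a φ hl ln lc lA hk y T t => by
  have := Fact.mk hl
  obtain ⟨u, s, e⟩ := cop hl ln
  have D0 := det_ne lA
  have n0 : (n : ZMod l) ≠ 0 := mt (ZMod.natCast_eq_zero_iff _ _).1 ln
  have e' : (s * n : ZMod l) = 1 := by simpa using congrArg (Int.cast : ℤ → ZMod l) e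
  have dv : ∀ x : ℤ, (n : ℤ) ∣ x → (x : ZMod l) = 0 → ((n * l : ℕ) : ℤ) ∣ x := fun x a b =>
    Nat.cast_mul (α := ℤ) n l ▸ (cop hl ln).symm.mul_dvd a ((ZMod.intCast_zmod_eq_zero_iff_dvd _ _).1 b)
  have md := Int.natCast_dvd_natCast.2 h.md
  have ul : (n : ℤ) ∣ u * l - 1 := ⟨-s, by linear_combination e⟩
  have r := rw_of (X := X) h.pos h.hc lc.coprime_mul_right_right e h.n0
  have r' := rw_of (X := X) h.pos h.hd lc.coprime_mul_left_right e h.n1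
  have y1 := cyc_inv h.pos y ul
  have k1 := det R ξ N c d n A h !![u, 0; 0, 1] !![u * A 0 0, A 0 1; u * A 1 0, A 1 1] _ u y1 (by simp)
    (by simp) (by simp [Fin.forall_fin_two, mm, mul_comm])
  have k2 := det R ξ N c d n A h !![u, 0; 0, u] (Matrix.of fun i j => u * A i j) _ _
    (cyc_mul h.pos y1 y1) (by simp) (by simp) (by simp [Fin.forall_fin_two, mm, mul_comm])
  generalize hD : (A 0 0 * A 1 1 - A 0 1 * A 1 0 : ZMod l) = D at D0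
  have kn : ∀ x : ℕ, (n : ℤ) ∣ u * l + s * n * x - 1 := fun x => ⟨s * (x - 1), by linear_combination e⟩
  rw [R.gsum h hl.pos (univ.erase 0) (fun τ : ZMod l => u * l + s * n * (n ^ 2 * τ / D).val)
    (fun τ => Matrix.of ![Wv n (fun i => l * (u * A 0 i)) ![τ, 0],
      Wv n (fun i => l * (u * A 1 i)) (![0, 1] : Fin 2 → ZMod l)])
    (fun τ b => ⟨kn _, ?_⟩) (fun τ _ τ' _ b => ?_)
    (fun k b c => ⟨k * D / n ^ 2, mem_erase.2 ⟨?_, mem_univ _⟩, dv _ ?_ ?_⟩) (fun τ _ => ?_) t]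
  · refine (congrArg (l • ·) ((core R h ln r r' hk).trans
      (congrArg₂ (fun x y => ZL Z ξ c d n A - a • x + l • y) k1 k2))).trans ?_
    have c1 := R.one h (k := u * l) (md.trans ul) φ⁻¹
    have c2 := R.one h (k := u * l * (u * l)) (md.trans (ul.trans ⟨u * l + 1, by ring⟩)) (φ⁻¹ * φ⁻¹)
    rw [sq]
    linear_combination (norm := module) c2 - a • c1
  · rw [Nat.cast_mul]
    obtain ⟨q, b'⟩ := kn (n ^ 2 * τ / D).val
    refine IsCoprime.mul_right ⟨1, -q, by linear_combination b'⟩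
      (((Nat.prime_iff_prime_int.1 hl).coprime_iff_not_dvd).2 ?_).symm
    simp [← ZMod.intCast_zmod_eq_zero_iff_dvd, e', n0, D0, (mem_erase.1 b).1]
  · simpa [e', n0, D0] using cast_eq ((Int.natCast_dvd_natCast.2 (dvd_mul_left l n)).trans b)
  · have := ((Nat.prime_iff_prime_int.1 hl).coprime_iff_not_dvd).1
      (c.of_isCoprime_of_dvd_right (Int.natCast_dvd_natCast.2 (dvd_mul_left l n))).symm
    simpa [← ZMod.intCast_zmod_eq_zero_iff_dvd, n0, D0] using this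
  · exact (b.sub (kn _)).trans (dvd_of_eq (sub_sub_sub_cancel_right _ _ _))
  · simp [e']
    field_simp
    ring
  · obtain ⟨B, b, b'⟩ := ex_sol lA ![n * τ, 0] ![0, n]
    have c : Cg n ((u * l) • 1 + (s * n) • B) 1 := fun i j => ⟨s * (B i j - (1 : M2) i j), by
      simp only [Matrix.add_apply, Matrix.smul_apply, smul_eq_mul]
      linear_combination (1 : M2) i j * e⟩
    have c' : ∀ i j, (((u * l) • 1 + (s * n) • B : M2) i j : ZMod l) = B i j := fun i j => by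
      simp only [Matrix.add_apply, Matrix.smul_apply, smul_eq_mul]
      simp [e']
    simp only [Fin.forall_fin_two, Matrix.cons_val_zero, Matrix.cons_val_one] at b b'
    refine ⟨_, c, dv _ ((c.det.sub (kn _)).trans
      (dvd_of_eq (by rw [Matrix.det_one, sub_sub_sub_cancel_right]))) ?_, fun i j => ?_⟩
    · simp only [Matrix.det_fin_two, Int.cast_sub, Int.cast_mul, c']
      simp [e', sub_eq_zero, eq_div_iff D0]
      linear_combination (A 1 0 * B 0 1 + A 1 1 * B 1 1 : ZMod l) * b.1 + n * τ * b'.2 -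
        (A 1 0 * B 0 0 + A 1 1 * B 1 0 : ZMod l) * b.2 - (B 0 0 * B 1 1 - B 0 1 * B 1 0 : ZMod l) * hD
    · rw [show Matrix.of ![Wv n (fun i => l * (u * A 0 i)) ![τ, 0], Wv n (fun i => l * (u * A 1 i))
        (![0, 1] : Fin 2 → ZMod l)] i j - (A * ((u * l) • 1 + (s * n) • B)) i j =
        n * (((!![τ, 0; 0, 1] i j).val : ℤ) - s * (A * B) i j) from ?_, dvd_np h.pos]
      · revert i j
        simp [Fin.forall_fin_two, mm, b, b', ← mul_assoc, e']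
      · rw [Matrix.mul_add, Matrix.mul_smul, Matrix.mul_smul, Matrix.mul_one]
        revert i j
        simp only [Fin.forall_fin_two, Matrix.add_apply, Matrix.smul_apply, smul_eq_mul]
        simp [Wv, -ZMod.natCast_val]
        refine ⟨⟨?_, ?_⟩, ?_, ?_⟩ <;> ring

end Vale.Agent.P014U.Ol
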