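import Vale.Agent.P014T.Pm.Mu
import Vale.Agent.P014U.Ol.St

/-! # P014U, levels at least three: several primes (helper62) -/

set_option linter.all false

open UpperHalfPlane CongruenceSubgroup Matrix Finset NumberField
open scoped MatrixGroups

noncomputable section

namespace Vale.Agent.P014U.Ol.Pm

open Vale.Agent.P014T Vale.Agent.P014T.Pm

open Vale.Agent.P022 H218.L3 H231.L3 P027M.M P022K.QT.Cu
open P027M.M.Dp hiding Gu
open Vale.Agent.P022E.GW (Ov Fb)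
open Vale.Agent.P014T.Dr (Hm Ha Tv Hm_le Ha_le Hm_open)
open Sg Nr

export Vale.Agent.P014T.Pm (up lo Uk ZP eu op Gz)

section

variable {X : Mdl} {Ξ C : Type} [AddCommGroup Ξ] [DistribMulAction Au Ξ] [AddCommGroup C] {m : ℕ}
  {Cu : AddSubgroup Ξ} {σ : GQ →* AddMonoid.End C} {Z : Subgroup SL(2, ℤ) → Ξ → FF → FF → C}
  {Γ Γ' : Subgroup SL(2, ℤ)} {ξ : Ξ} {u v : FF} {c d k : ℕ} {w w' : Fin 2 → ℤ} {A B Y Y' : M2}

theorem ok_mono (h : Ok X Cu Γ ξ u v) (le : Γ' ≤ Γ) (l : Lev Γ') : Ok X Cu Γ' ξ u v :=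
  ⟨l, xi_mono h.xi le, un_mono h.u1 le, un_mono h.u2 le⟩

theorem xi_pA (R : Ru X m Cu σ Z) (h : Xi X Cu Γ ξ) (hA : 0 < A.det) (j : Cj A Γ Γ') :
    Xi X Cu Γ' (pA X A hA • ξ) :=
  ⟨R.cu A hA ξ h.cu, fun γ a => (j γ a).elim fun g b => by rw [sw X hA hA b.2, h.inv g b.1],
    fun g a => by rw [← mul_smul, comm X hA g a, mul_smul, h.fix g a]⟩

theorem z_sum (R : Ru X m Cu σ Z) {ι : Type} (s : Finset ι) {f : ι → Ξ} (h : ∀ i, Xi X Cu Γ (f i))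
    (l : Lev Γ) (a : Un X Γ u) (b : Un X Γ v) : Z Γ (∑ i ∈ s, f i) u v = ∑ i ∈ s, Z Γ (f i) u v := by
  classical
  induction s using Finset.induction_on with
  | empty => simpa using R.add Γ _ _ u v ⟨l, xi_sum ∅ h, a, b⟩ (xi_sum ∅ h)
  | insert i s hi ih => rw [sum_insert hi, sum_insert hi, R.add Γ _ _ u v ⟨l, h i, a, b⟩ (xi_sum s h), ih]

theorem z_smul (R : Ru X m Cu σ Z) (o : Ok X Cu Γ ξ u v) (a : ℤ) :
    Z Γ (a • ξ) u v = a • Z Γ ξ u v := by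
  have x (b : ℤ) : Xi X Cu Γ (b • ξ) := ⟨zsmul_mem o.xi.cu b,
    fun γ h => by rw [smul_comm, o.xi.inv γ h], fun γ h => by rw [smul_comm, o.xi.fix γ h]⟩
  have e (b : ℤ) : Z Γ ((b + 1) • ξ) u v = Z Γ (b • ξ) u v + Z Γ ξ u v := by
    rw [add_smul, one_smul, R.add Γ _ _ u v ⟨o.lev, x b, o.u1, o.u2⟩ o.xi]
  induction a using Int.induction_on with
  | zero => simpa using e 0
  | succ i ih => rw [e, ih, add_smul, one_smul]
  | pred i ih => rw [sub_smul _ _ (Z _ _ _ _), one_smul, ← ih, eq_sub_iff_add_eq, ← e, sub_add_cancel]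

theorem z_prod (R : Ru X m Cu σ Z) {ι : Type} (s : Finset ι) {f : ι → FF} (h : ∀ i, Un X Γ (f i))
    (l : Lev Γ) (a : Xi X Cu Γ ξ) (b : Un X Γ v) :
    Z Γ ξ (∏ i ∈ s, f i) v = ∑ i ∈ s, Z Γ ξ (f i) v := by
  classical
  induction s using Finset.induction_on with
  | empty => simpa using R.ml Γ ξ _ _ v ⟨l, a, un_prod ∅ h, b⟩ (un_prod ∅ h)
  | insert i s hi ih => rw [prod_insert hi, sum_insert hi, R.ml Γ ξ _ _ v ⟨l, a, h i, b⟩ (un_prod s h), ih]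

theorem z_prod' (R : Ru X m Cu σ Z) {ι : Type} (s : Finset ι) {f : ι → FF} (h : ∀ i, Un X Γ (f i))
    (l : Lev Γ) (a : Xi X Cu Γ ξ) (b : Un X Γ v) :
    Z Γ ξ v (∏ i ∈ s, f i) = ∑ i ∈ s, Z Γ ξ v (f i) := by
  rw [R.skew Γ ξ _ v ⟨l, a, un_prod s h, b⟩, z_prod R s h l a b, ← sum_neg_distrib]
  exact sum_congr rfl fun i _ => (R.skew Γ ξ _ v ⟨l, a, h i, b⟩).symm

theorem z_idx (R : Ru X m Cu σ Z) (o : Ok X Cu Γ ξ u v) (le : Γ' ≤ Γ) (l : Lev Γ') {ι : Type}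
    [Fintype ι] {r : ι → SL(2, ℤ)} (h : Reps Γ Γ' r) :
    Z Γ' ξ u v = Fintype.card ι • Z Γ ξ u v := by
  rw [R.res Γ Γ' ξ u v ι r le h o.lev o.u1 o.u2 (ok_mono o le l),
    sum_congr rfl fun i _ => o.xi.inv _ (h.mem i), z_sum R _ (fun _ => o.xi) o.lev o.u1 o.u2,
    sum_const, card_univ]

theorem lev_Ga (hk : 0 < k) (h4 : 3 ≤ k) : Lev (Gamma k) := ⟨⟨k, hk, le_rfl⟩, k, h4, le_rfl⟩

/-- the data of level `k` -/
structure Lv (c d k : ℕ) (Y : M2) : Prop where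
  hc : c ^ 2 % 24 = 1
  hd : d ^ 2 % 24 = 1
  pos : 0 < k
  four : 3 ≤ k
  n0 : Nz c (vL k (Y 0))
  n1 : Nz d (vL k (Y 1))

theorem Lv.ok (y : Lv c d k Y) (x : Xi X Cu (Gamma k) ξ) :
    Ok X Cu (Gamma k) ξ (sF c (vL k (Y 0))) (sF d (vL k (Y 1))) :=
  ⟨lev_Ga y.pos y.four, x, un_sF y.hc y.pos y.n0, un_sF y.hd y.pos y.n1⟩

/-- **transport by `γ`** -/
theorem Lv.conj (R : Ru X m Cu σ Z) (y : Lv c d k Y) (x : Xi X Cu (Gamma k) ξ) (γ : SL(2, ℤ))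
    (h : Cg k Y' (Y * γ)) : ZL Z (pS X γ • ξ) c d k Y' = ZL Z ξ c d k Y := by
  rw [ZL, ZL, sF_cv y.hc y.pos (h 0), sF_cv y.hd y.pos (h 1), row_mul, row_mul, ← vg_vL, ← vg_vL,
    ← sF_pg y.hc X y.n0, ← sF_pg y.hd X y.n1]
  exact R.conj _ _ ξ _ _ γ (SL_pos γ) (cj_Ga k γ) (fun g a => ⟨γ⁻¹ * g * γ,
    (Gamma_normal k).conj_mem' g a γ,
      congrArg Subtype.val (show γ * (γ⁻¹ * g * γ) = g * γ by group)⟩) (comm X _) (y.ok x) (lev_Ga y.pos y.four)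

end

section

variable {X : Mdl} {Ξ C : Type} [AddCommGroup Ξ] [DistribMulAction Au Ξ] [AddCommGroup C] {m : ℕ}
  {Cu : AddSubgroup Ξ} {σ : GQ →* AddMonoid.End C} {Z : Subgroup SL(2, ℤ) → Ξ → FF → FF → C}
  {ξ : Ξ} {c d n p k N : ℕ} {A G Y Y' : M2}

theorem Lv.up (y : Lv c d n Y) (p0 : 0 < p) (h : Cg n Y' (Y * G)) (g : IsCoprime G.det n) :
    Lv c d (n * p) Y' := by
  have k (e : ℕ) (i : Fin 2) (a : Nz e (vL n (Y i))) : Nz e (vL (n * p) (Y' i)) := by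
    rw [nz_iff y.pos] at a
    refine (nz_iff (Nat.mul_pos y.pos p0)).2 fun b => a ?_
    have b' (j) : (n : ℤ) ∣ e * (Y * G) i j := by
      have := ((Int.natCast_dvd_natCast.2 (dvd_mul_right n p)).trans (b j)).sub ((h i j).mul_left e)
      rwa [mul_sub, sub_sub_cancel] at this
    have b0 := b' 0
    have b1 := b' 1
    rw [mm] at b0 b1
    rw [det_fin_two] at g
    exact Fin.forall_fin_two.2 ⟨g.symm.dvd_of_dvd_mul_left (((b0.mul_left (G 1 1)).sub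
      (b1.mul_left (G 1 0))).trans (dvd_of_eq (by ring))), g.symm.dvd_of_dvd_mul_left
      (((b1.mul_left (G 0 0)).sub (b0.mul_left (G 0 1))).trans (dvd_of_eq (by ring)))⟩
  exact ⟨y.hc, y.hd, Nat.mul_pos y.pos p0, y.four.trans (Nat.le_mul_of_pos_right n p0), k c 0 y.n0, k d 1 y.n1⟩

theorem stepA (R : Ru X m Cu σ Z) (p0 : 0 < p) (pn : IsCoprime (p : ℤ) n) (pm : IsCoprime (p : ℤ) m)
    (pc : p.Coprime c) (pd : p.Coprime d) (x : Xi X Cu (Gamma0 N) ξ) (hN : N ∣ n * p)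
    (y : Lv c d n Y) (hδ : 0 < (!![1, 0; 0, (p : ℤ)] : M2).det) :
    ZL Z ξ c d (n * p) (Y * !![(p : ℤ), 0; 0, 1]) =
      ∑ i ∈ range p, ∑ j ∈ range p, ZL Z (pA X _ hδ • ξ) c d (n * p) (sh n Y i j) := by
  have := NeZero.mk p0.ne'
  have k0 := Nat.mul_pos y.pos p0
  have y0 : Lv c d (n * p) (Y * !![(p : ℤ), 0; 0, 1]) := y.up p0 Cg.rfl (by simpa using pn)
  have y1 (i j : ℤ) : Lv c d (n * p) (sh n Y i j) := y.up p0 (sh_cg i j) (by simpa using isCoprime_one_left)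
  have x0 := xi_mono x (Ga_G0 hN)
  have x1 := xi_pA R x hδ (cj_dl hN)
  have l (H : Subgroup SL(2, ℤ)) (h : Gamma (n * p * p) ≤ H) : Lev (Gamma (n * p) ⊓ H) :=
    ⟨⟨_, Nat.mul_pos k0 p0, le_inf (Ga_le (dvd_mul_right _ _)) h⟩,
      _, y0.four, inf_le_left⟩
  have l1 := l _ (Ga_G0 dvd_rfl)
  have l2 := l (Gu (n * p * p : ℕ)) fun γ h => (mem_Ga.1 h 0 1).trans (by simp)
  have r1 := reps_gen (p := p) k0 (dvd_mul_left _ _) (H := Gamma0 (n * p * p)) (r := lo) (a := 1) (b := 0)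
    (by decide) (fun _ => mem_G0) lo_mem lo_inv fun _ => ⟨rfl, rfl⟩
  have r2 := reps_gen (p := p) k0 (dvd_mul_left _ _) (H := Gu (n * p * p : ℕ)) (r := up) (a := 0) (b := 1)
    (by decide) (fun _ => Iff.rfl) up_mem up_inv fun _ => ⟨rfl, rfl⟩
  have e (e : ℕ) (he : e ^ 2 % 24 = 1) (pe : p.Coprime e) (i : Fin 2)
      (a : Nz e (vL (n * p) ((Y * !![(p : ℤ), 0; 0, 1]) i))) :
      X.pb _ hδ (sF e (vL (n * p) ((Y * !![(p : ℤ), 0; 0, 1]) i))) =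
        ∏ j ∈ range p, sF e (vL (n * p) ![Y i 0 + n * j, Y i 1]) := by
    have q : vL (n * p) ((Y * !![(p : ℤ), 0; 0, 1]) i) = ![p * vL (n * p) (Y i) 0, vL (n * p) (Y i) 1] :=
      funext (Fin.forall_fin_two.2 ⟨by simp [vL, mm]; ring, by simp [vL, mm]⟩)
    rw [q] at a ⊢
    rw [← sF_dist2 he X p0 pe a hδ]
    have : (n : ℚ) ≠ 0 := Nat.cast_ne_zero.2 y.pos.ne'
    refine prod_congr rfl fun j _ => congrArg _ (funext (Fin.forall_fin_two.2 ⟨?_, rfl⟩))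
    simp [vL]
    field_simp
  refine can pm (R.tor _ _ _ _ (y0.ok x0)) (by
    simp only [smul_sum, ZL, R.tor _ _ _ _ ((y1 _ _).ok x1), sum_const_zero]) ?_
  have z1 := z_idx R (y0.ok x0) inf_le_left l1 r1
  have z2 (i j : ℤ) := z_idx R ((y1 i j).ok x1) inf_le_left l2 r2
  rw [ZMod.card] at z1 z2
  simp only [smul_sum, ZL, ← z2]
  rw [← z1, ← R.conj _ _ ξ _ _ _ hδ ?_ ?_ (comm X _) (ok_mono (y0.ok x0) inf_le_left l1) l2,
    e c y.hc pc 0 y0.n0, e d y.hd pd 1 y0.n1]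
  · have u (j : ℕ) := un_mono ((y1 j j).ok x1).u1 (inf_le_left (b := Gu (n * p * p : ℕ)))
    have v (j : ℕ) := un_mono ((y1 j j).ok x1).u2 (inf_le_left (b := Gu (n * p * p : ℕ)))
    exact (z_prod R _ u l2 (xi_mono x1 inf_le_left) (un_prod _ v)).trans
      (sum_congr rfl fun i _ => z_prod' R _ v l2 (xi_mono x1 inf_le_left) (u i))
  · rintro γ ⟨h1, b, e⟩
    obtain ⟨g, a0, a1, a2, a3, k⟩ := dl (p := p) γ (b := (n * p : ℕ) * b) (by rw [e]; push_cast; ring)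
    have h := mem_Ga.1 h1
    have h' : ((n * p : ℕ) : ℤ) ∣ γ 1 0 := by simpa using h 1 0
    refine ⟨g, ⟨mem_Ga.2 ?_, mem_G0.2 ?_⟩, k⟩
    · simp only [Cg, Fin.forall_fin_two, a0, a1, a2, a3]
      exact ⟨⟨h 0 0, by simp⟩, by simpa using h'.mul_left p, h 1 1⟩
    · rw [a2, Nat.cast_mul, mul_comm]
      exact mul_dvd_mul_left _ h'
  · rintro g ⟨h1, h2⟩
    obtain ⟨b, e⟩ := mem_G0.1 h2
    obtain ⟨γ, a0, a1, a2, a3, k⟩ := dl' (p := p) g (b := (n * p : ℕ) * b) (by rw [e]; push_cast; ring)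
    have h := mem_Ga.1 h1
    have h' : ((n * p : ℕ) : ℤ) ∣ g 0 1 := by simpa using h 0 1
    refine ⟨γ, ⟨mem_Ga.2 ?_, ?_⟩, k⟩
    · simp only [Cg, Fin.forall_fin_two, a0, a1, a2, a3]
      exact ⟨⟨h 0 0, by simpa using h'.mul_left p⟩, by simp, h 1 1⟩
    · change _ ∣ γ 0 1
      rw [a1, Nat.cast_mul, mul_comm]
      exact mul_dvd_mul_left _ h'

end

end Vale.Agent.P014U.Ol.Pm
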