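import Vale.Agent.P014U.Ol.Rul

/-! # P014U, levels at least three: the norm relation at a prime which divides the level (helper48) -/

set_option autoImplicit false
set_option linter.all false

open CongruenceSubgroup Finset
open scoped MatrixGroups Matrix

noncomputable section

namespace Vale.Agent.P014U.Ol

open Vale.Agent.P014T Vale.Agent.P014T.Nr

open Vale.Agent.P022 H231.L3 P027M.M P027M.M.Dp
open Vale.Agent.P014T.Dr (Hm Ha Tv Ha_le Hm_le)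
open Sg

variable {n p : ℕ} [hp : Fact p.Prime] {A B : M2} {w : Fin 2 → ℤ} {e e' : Fin 2 → ZMod p}

theorem Wv_zero : Wv n w (0 : Fin 2 → ZMod p) = w := funext fun i => by simp [Wv]

theorem cvW2 (n0 : 0 < n) (pn : p ∣ n) {γ : M2} (h : Bx n γ B) :
    Cv (n * p : ℕ) (Wv n w e ᵥ* γ) (Wv n w e') ↔ ∀ j, e' j = e j + w 0 * B 0 j + w 1 * B 1 j := by
  have : (n : ZMod p) = 0 := (ZMod.natCast_eq_zero_iff _ _).2 pn
  simp only [cvW n0 h, Fin.forall_fin_two, h 0 0, h 0 1, h 1 0, h 1 1]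
  simp [this]

theorem cast_eq {x y : ℤ} (h : (p : ℤ) ∣ x - y) : (x : ZMod p) = y :=
  ((ZMod.intCast_eq_intCast_iff_dvd_sub _ _ _).2 h).symm

/-- a linear form -/
def la (A : M2) (e : Fin 2 → ZMod p) : ZMod p := A 1 1 * e 0 - A 1 0 * e 1

theorem det_ne (h : ¬ (p : ℤ) ∣ A.det) : (A 0 0 * A 1 1 - A 0 1 * A 1 0 : ZMod p) ≠ 0 := by
  rw [← ZMod.intCast_zmod_eq_zero_iff_dvd, Matrix.det_fin_two] at h
  exact_mod_cast h

theorem ex_la (h : ¬ (p : ℤ) ∣ A.det) (t : ZMod p) : ∃ e, la A e = t :=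
  ⟨![A 0 0 * t / (A 0 0 * A 1 1 - A 0 1 * A 1 0), A 0 1 * t / (A 0 0 * A 1 1 - A 0 1 * A 1 0)], by
    have := det_ne h
    simp only [la, Matrix.cons_val_zero, Matrix.cons_val_one]
    rw [← mul_div_assoc, ← mul_div_assoc, ← sub_div, div_eq_iff this]
    ring⟩

theorem ex_sol (h : ¬ (p : ℤ) ∣ A.det) (e e' : Fin 2 → ZMod p) : ∃ B : M2,
    (∀ j, (A 0 0 * B 0 j + A 0 1 * B 1 j : ZMod p) = e j) ∧
      ∀ j, (A 1 0 * B 0 j + A 1 1 * B 1 j : ZMod p) = e' j := by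
  obtain ⟨y, k⟩ : ∃ y, y * (A 0 0 * A 1 1 - A 0 1 * A 1 0 : ZMod p) = 1 :=
    ⟨_, inv_mul_cancel₀ (det_ne h)⟩
  refine ⟨Matrix.of ![fun j => (y * (A 1 1 * e j - A 0 1 * e' j)).val,
    fun j => (y * (A 0 0 * e' j - A 1 0 * e j)).val], fun j => ?_, fun j => ?_⟩ <;> simp
  · linear_combination e j * k
  · linear_combination e' j * k

theorem ex_ga (n0 : 0 < n) (pn : p ∣ n) (h : ¬ (p : ℤ) ∣ A.det) {e e' : Fin 2 → ZMod p}
    (k : la A e = A 0 1 * e' 0 - A 0 0 * e' 1) : ∃ γ ∈ Gamma n, ∃ B, Bx n γ B ∧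
    (∀ j, (A 0 0 * B 0 j + A 0 1 * B 1 j : ZMod p) = e j) ∧
      ∀ j, (A 1 0 * B 0 j + A 1 1 * B 1 j : ZMod p) = e' j := by
  obtain ⟨G, a, b⟩ := ex_sol h e e'
  obtain ⟨γ, m, B, c, d⟩ := lift_dvd n0 hp.out.pos pn (G := G)
    ((ZMod.intCast_zmod_eq_zero_iff_dvd _ _).1 (mul_left_cancel₀ (det_ne h) (by
      rw [la, ← a, ← a, ← b, ← b] at k
      push_cast
      linear_combination k)))
  exact ⟨γ, m, B, c, by simpa only [cast_eq (d _ _)] using And.intro a b⟩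

theorem Ga_eq (n0 : 0 < n) (pn : p ∣ n) (h : ¬ (p : ℤ) ∣ A.det) (e e' : Fin 2 → ZMod p) :
    Gamma (n * p) = Gamma n ⊓ St (n * p : ℕ) (Wv n (A 1) e') ⊓ St (n * p : ℕ) (Wv n (A 0) e) := by
  refine le_antisymm (le_inf (le_inf (Ga_le (dvd_mul_right _ _)) (Ga_St _)) (Ga_St _)) ?_
  rintro γ ⟨⟨a, b⟩, c⟩
  obtain ⟨B, k⟩ := ex_B a
  replace b := (cvW2 n0 pn k).1 b
  replace c := (cvW2 n0 pn k).1 c
  refine mem_Ga.2 fun i j => ?_
  rw [k, add_sub_cancel_left, dvd_np n0]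
  refine mul_left_cancel₀ (det_ne h) ?_
  revert i
  refine Fin.forall_fin_two.2 ⟨?_, ?_⟩
  · linear_combination A 0 1 * b j - A 1 1 * c j
  · linear_combination A 1 0 * c j - A 0 0 * b j

variable {X : Mdl} {Ξ C : Type} [AddCommGroup Ξ] [DistribMulAction Au Ξ] [AddCommGroup C] {m : ℕ}
  {Cu : AddSubgroup Ξ} {σ : GQ →* AddMonoid.End C} {Z : Subgroup SL(2, ℤ) → Ξ → FF → FF → C}
  {ξ : Ξ} {N c d : ℕ} (R : Ru X m Cu σ Z) (h : Cx X m Cu ξ N c d n A) (pn : p ∣ n)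
  (pA : ¬ (p : ℤ) ∣ A.det)
include R h pn pA

theorem two1 (e : Fin 2 → ZMod p) :
    Un X (Gamma n ⊓ St (n * p : ℕ) (Wv n (A 1) (0 : Fin 2 → ZMod p)))
      (∏ e' with la A e' = la A e, gs c (n * p) (Wv n (A 0) e')) ∧
    Z (Gamma (n * p)) ξ (gs c (n * p) (Wv n (A 0) e)) (gs d (n * p) (Wv n (A 1) (0 : Fin 2 → ZMod p))) =
      Z (Gamma n ⊓ St (n * p : ℕ) (Wv n (A 1) (0 : Fin 2 → ZMod p))) ξ
        (∏ e' with la A e' = la A e, gs c (n * p) (Wv n (A 0) e'))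
        (gs d (n * p) (Wv n (A 1) (0 : Fin 2 → ZMod p))) := by
  have n1 := Nat.mul_pos h.pos hp.out.pos
  have lo := le_inf (Ga_le (dvd_mul_right n p)) (Ga_St (Wv n (A 1) (0 : Fin 2 → ZMod p)))
  rw [Ga_eq h.pos pn pA e 0]
  refine R.orb1 h.hc n1 (h.ok.lev.mono inf_le_left n1 lo) lo (h.xi.mono inf_le_left)
    (gs_un X h.hd n1 (Nz.up h.pos hp.out.pos h.n1 Wv_cv) inf_le_right)
    (Nz.up h.pos hp.out.pos h.n0 Wv_cv) _ (Wv_inj h.pos) (fun e' a => ?_) fun γ a => ?_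
  · obtain ⟨γ, m, B, k, a, b⟩ := ex_ga h.pos pn pA (e := e' - e) (e' := 0) (by
      have := (mem_filter.1 a).2
      simp only [la, Pi.sub_apply, Pi.zero_apply] at this ⊢
      linear_combination this)
    exact ⟨γ, ⟨m, (cvW2 h.pos pn k).2 fun j => by rw [add_assoc, b, Pi.zero_apply, add_zero]⟩,
      (cvW2 h.pos pn k).2 fun j => by rw [add_assoc, a, Pi.sub_apply, add_sub_cancel]⟩
  · obtain ⟨B, k⟩ := ex_B a.1
    have b := (cvW2 h.pos pn k).1 a.2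
    have t := (ZMod.intCast_zmod_eq_zero_iff_dvd _ p).2
      ((Int.natCast_dvd_natCast.2 pn).trans (k.tr h.pos))
    refine ⟨fun j => e j + A 0 0 * B 0 j + A 0 1 * B 1 j, mem_filter.2 ⟨mem_univ _, ?_⟩,
      (cvW2 h.pos pn k).2 fun _ => rfl⟩
    simp only [la, Pi.zero_apply, Int.cast_add] at b t ⊢
    linear_combination (A 0 0 * A 1 1 - A 0 1 * A 1 0 : ZMod p) * t - A 0 1 * b 0 + A 0 0 * b 1

theorem two2 (pd : p.Coprime d) {u : FF} (k : Un X (Gamma n) u) :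
    Z (Gamma n ⊓ St (n * p : ℕ) (Wv n (A 1) (0 : Fin 2 → ZMod p))) ξ u
      (gs d (n * p) (Wv n (A 1) (0 : Fin 2 → ZMod p))) = Z (Gamma n) ξ u (gs d n (A 1)) := by
  rw [← gs_dist h.hd h.pos pd h.n1]
  refine (R.orb2 h.hd (Nat.mul_pos h.pos hp.out.pos) h.ok.lev (Ga_le (dvd_mul_right n p)) h.xi k
    (Nz.up h.pos hp.out.pos h.n1 Wv_cv) _ (Wv_inj h.pos) (fun e' a => ?_) fun γ a => ?_).2
  · obtain ⟨e, a⟩ := ex_la pA (A 0 1 * e' 0 - A 0 0 * e' 1)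
    obtain ⟨γ, m, B, k, -, b⟩ := ex_ga h.pos pn pA a
    exact ⟨γ, m, (cvW2 h.pos pn k).2 fun j => by rw [add_assoc, b, Pi.zero_apply, zero_add]⟩
  · obtain ⟨B, k⟩ := ex_B a
    exact ⟨_, mem_univ _, (cvW2 h.pos pn k).2 fun _ => rfl⟩

omit hp h pn pA in
theorem d2 : D2 X m Cu σ Z := fun ξ N c d n A h p hp pn pc pA T t => by
  have := Fact.mk hp
  have D0 := det_ne pA
  have n1 := Nat.mul_pos h.pos hp.pos
  have lo := le_inf (Ga_le (dvd_mul_right n p)) (Ga_St (Wv n (A 1) (0 : Fin 2 → ZMod p)))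
  choose ε e using ex_la (p := p) pA
  generalize hD : (A 0 0 * A 1 1 - A 0 1 * A 1 0 : ZMod p) = D at D0
  rw [R.gsum h hp.pos univ (fun τ : ZMod p => 1 + n * ((τ / D).val : ℤ))
    (fun τ => Matrix.of ![Wv n (A 0) (ε τ), Wv n (A 1) (0 : Fin 2 → ZMod p)])
    (fun τ _ => ⟨by simp, ?_⟩) (fun τ _ τ' _ a => ?_) (fun k ⟨q, a⟩ _ => ⟨q * D, mem_univ _, ?_⟩)
    (fun τ _ => ?_) t]
  · have := fun τ => e τ ▸ two1 R h pn pA (ε τ)
    refine (sum_congr rfl fun τ _ => (this τ).2).trans ?_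
    rw [← R.prod_l (h.ok.lev.mono inf_le_left n1 lo) (h.xi.mono inf_le_left)
      (gs_un X h.hd n1 (Nz.up h.pos hp.pos h.n1 Wv_cv) inf_le_right) fun τ _ => (this τ).1,
      prod_fiberwise, gs_dist h.hc h.pos pc.coprime_mul_right_right h.n0,
      two2 R h pn pA pc.coprime_mul_left_right h.ok.u1, ZL_eq]
  · obtain ⟨q, rfl⟩ := pn
    generalize ((τ / D).val : ℤ) = x
    push_cast
    exact IsCoprime.mul_right ⟨1, -x, by ring⟩ ⟨1, -(q * x), by ring⟩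
  · rw [add_sub_add_left_eq_sub, ← mul_sub, dvd_np h.pos] at a
    simpa [sub_eq_zero, D0] using a
  · rw [sub_eq_iff_eq_add'.1 a, add_sub_add_left_eq_sub, ← mul_sub, dvd_np h.pos]
    simp [D0]
  · obtain ⟨B, a, b⟩ := ex_sol pA (ε τ) 0
    obtain ⟨G, k⟩ : ∃ G, Bx n G B := ⟨Matrix.of fun i j => (1 : M2) i j + n * B i j, fun _ _ => rfl⟩
    refine ⟨G, fun i j => by rw [k, add_sub_cancel_left]; exact dvd_mul_right _ _, ?_, fun i => ?_⟩
    · have := e τ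
      rw [la, ← a, ← a] at this
      rw [k.det, add_sub_add_left_eq_sub, ← mul_sub, dvd_np h.pos]
      simp only [Int.cast_sub, Int.cast_add, Int.cast_mul, Int.cast_natCast, ZMod.natCast_zmod_val,
        (ZMod.natCast_eq_zero_iff _ _).2 pn, zero_mul, add_zero, sub_eq_zero, eq_div_iff D0,
        Pi.zero_apply] at b ⊢
      linear_combination this - A 0 1 * b 0 + A 0 0 * b 1 - (B 0 0 + B 1 1 : ZMod p) * hD
    · rw [row_mul, ← Wv_zero (n := n) (p := p) (w := A i)]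
      fin_cases i
      · exact ((cvW2 h.pos pn k).2 fun j => by simp [← a]).symm
      · exact ((cvW2 h.pos pn k).2 fun j => by simpa using (b j).symm).symm

end Vale.Agent.P014U.Ol
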